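import Vale.Agent.P160.RD.SwapB304

/-!
# P160, block (M), leaf M/RQ, part (1): the swap lemma

* `swap`: for a rational subspace `V` of codimension `r`, `P_{1/2}(x ∈ V) ≤ 2^(-r/3) P_{3/4}(x ∈ V)`,
  where `P_{1/2}` is the law `(1/2,1/4,1/4)` and `P_{3/4}` the law `(3/4,1/8,1/8)` of `0, 1, -1`.
* `odlyzko` (in `SwapA304`): `P_{3/4}(x ∈ V) ≤ (3/4)^r`.
-/

namespace Vale.Agent.P160.RD.Swap304

open Finset Module

theorem hoelder {κ : Type*} (s : Finset κ) (a : κ → ℝ) (ha : ∀ i ∈ s, 0 ≤ a i) :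
    (∑ i ∈ s, a i ^ 2) ^ 3 ≤ (∑ i ∈ s, a i) ^ 2 * ∑ i ∈ s, a i ^ 4 := by
  have h1 : (∑ i ∈ s, a i ^ 2) ^ 2 ≤ (∑ i ∈ s, a i) * ∑ i ∈ s, a i ^ 3 :=
    Finset.sum_sq_le_sum_mul_sum_of_sq_le_mul s (fun i hi => ha i hi)
      (fun i hi => pow_nonneg (ha i hi) 3) (fun i _ => le_of_eq (by ring))
  have h2 : (∑ i ∈ s, a i ^ 3) ^ 2 ≤ (∑ i ∈ s, a i ^ 2) * ∑ i ∈ s, a i ^ 4 :=
    Finset.sum_sq_le_sum_mul_sum_of_sq_le_mul s (fun i hi => pow_nonneg (ha i hi) 2)
      (fun i hi => pow_nonneg (ha i hi) 4) (fun i _ => le_of_eq (by ring))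
  have p1 : 0 ≤ ∑ i ∈ s, a i := sum_nonneg ha
  have p2 : 0 ≤ ∑ i ∈ s, a i ^ 2 := sum_nonneg fun i hi => pow_nonneg (ha i hi) 2
  have p3 : 0 ≤ ∑ i ∈ s, a i ^ 3 := sum_nonneg fun i hi => pow_nonneg (ha i hi) 3
  have p4 : 0 ≤ ∑ i ∈ s, a i ^ 4 := sum_nonneg fun i hi => pow_nonneg (ha i hi) 4
  generalize (∑ i ∈ s, a i) = A1 at *
  generalize (∑ i ∈ s, a i ^ 2) = A2 at *
  generalize (∑ i ∈ s, a i ^ 3) = A3 at *
  generalize (∑ i ∈ s, a i ^ 4) = A4 at *
  rcases p2.eq_or_lt with h0 | h0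
  · rw [← h0]
    have : 0 ≤ A1 ^ 2 * A4 := by positivity
    simpa using this
  · have h3 : A2 * A2 ^ 3 ≤ A2 * (A1 ^ 2 * A4) := by
      calc A2 * A2 ^ 3 = (A2 ^ 2) ^ 2 := by ring
        _ ≤ (A1 * A3) ^ 2 := pow_le_pow_left₀ (by positivity) h1 2
        _ = A1 ^ 2 * A3 ^ 2 := by ring
        _ ≤ A1 ^ 2 * (A2 * A4) := mul_le_mul_of_nonneg_left h2 (by positivity)
        _ = A2 * (A1 ^ 2 * A4) := by ring
    exact le_of_mul_le_mul_left h3 h0

theorem abs_hpar_le (s : Bool) (t : ℝ) : |hpar s t| ≤ (1 + t ^ 2) / 4 := by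
  unfold hpar
  cases s
  · simp only [Bool.false_eq_true, if_false]
    rw [abs_of_nonneg (by positivity)]
  · simp only [if_true]
    rw [abs_le]
    constructor <;> nlinarith [sq_nonneg (t - 1), sq_nonneg (t + 1)]

theorem sqrt_le' {t : ℝ} (ht : |t| ≤ 1) : Real.sqrt ((1 + t) / 2) ≤ (3 + t) / 4 := by
  have h := abs_le.1 ht
  rw [Real.sqrt_le_left (by linarith)]
  nlinarith [sq_nonneg (t - 1)]

/-- the `0/1` vector mod 2 of a Boolean vector -/
def pat {k : ℕ} (s : Fin k → Bool) : Fin k → ZMod 2 := fun i => if s i then 1 else 0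

theorem pat_injective {k : ℕ} : Function.Injective (pat (k := k)) := by
  intro s t h
  funext i
  have := congrFun h i
  unfold pat at this
  cases hs : s i <;> cases ht : t i <;> simp_all

open Classical in
theorem card_pat_le {k : ℕ} (V : Submodule ℚ (Fin k → ℚ)) :
    (univ.filter fun s : Fin k → Bool => pat s ∈ parSub V).card ≤ 2 ^ finrank ℚ V := by
  refine le_trans ?_ (card_par_le V)
  apply Finset.card_le_card_of_injOn pat
  · intro s hs
    have := (mem_filter.1 (mem_coe.1 hs)).2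
    exact mem_coe.2 (mem_filter.2 ⟨mem_univ _, this⟩)
  · exact pat_injective.injOn

open Classical in
/-- collisions -/
theorem coll {k : ℕ} (V : Submodule ℚ (Fin k → ℚ)) {G : Type} [AddCommGroup G] [Fintype G]
    [DecidableEq G] (c : Fin k → G) (hc : ∀ y : Fin k → ℤ, (∀ i, |y i| ≤ 2) →
        (∑ i, y i • c i = 0 ↔ (fun i => (y i : ℚ)) ∈ V)) :
    (∑ x : Fin k → Fin 3 × Fin 3, if ∑ i, ev (x i) • c i = 0 then ∏ i, wp (x i) else 0) ≤
      (1 / 2 : ℝ) ^ (k - finrank ℚ V) * ∑ x : Fin k → Fin 3 with vec x ∈ V, v x := by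
  have hg0 : (0 : ℝ) < Fintype.card G := by exact_mod_cast Fintype.card_pos
  set F := ∑ x : Fin k → Fin 3 with vec x ∈ V, v x with hF
  have hF0 : 0 ≤ F := sum_nonneg fun x _ => v_nonneg x
  have hd : finrank ℚ V ≤ k := by
    have := Submodule.finrank_le V
    simpa using this
  let E : (Fin k → Bool) → ℝ := fun σ => ∑ x : Fin k → Fin 3 × Fin 3,
    if ∑ i, ev (x i) • c i = 0 then ∏ i, (if par (x i) = σ i then wp (x i) else 0) else 0
  -- (3)
  have e3 : (Fintype.card G : ℝ) * F = ∑ ψ : AddChar G ℂ, ∏ i, (1 + (ψ (c i)).re ^ 2) / 2 := by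
    rw [← fourier (fun _ => w8) (fun b => 2 * val b) c (fun _ t => (1 + t ^ 2) / 2)
      (fun _ z hz => cf8d z hz)]
    congr 1
    rw [hF, sum_filter]
    refine sum_congr rfl fun x _ => ?_
    have h1 := hc (fun i => 2 * val (x i)) (fun i => val_bound2 _)
    have h2 : (fun i => ((2 * val (x i) : ℤ) : ℚ)) ∈ V ↔ vec x ∈ V := by
      have e : (fun i => ((2 * val (x i) : ℤ) : ℚ)) = (2 : ℚ) • vec x := by
        funext i
        simp [vec]
      rw [e]
      exact V.smul_mem_iff (by norm_num)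
    by_cases hx : vec x ∈ V
    · rw [if_pos hx, if_pos (h1.2 (h2.2 hx))]; rfl
    · rw [if_neg hx, if_neg (fun h => hx (h2.1 (h1.1 h)))]
  -- (5)
  have e5 : ∀ σ, (Fintype.card G : ℝ) * E σ = ∑ ψ : AddChar G ℂ, ∏ i, hpar (σ i) (ψ (c i)).re := by
    intro σ
    exact fourier (fun i p => if par p = σ i then wp p else 0) ev c (fun i t => hpar (σ i) t)
      (fun i z hz => cfpar (σ i) z hz)
  have hE : ∀ σ, E σ ≤ (1 / 2 : ℝ) ^ k * F := by
    intro σ
    have h1 : (Fintype.card G : ℝ) * E σ ≤ (Fintype.card G : ℝ) * ((1 / 2 : ℝ) ^ k * F) := by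
      rw [e5 σ]
      have e : (Fintype.card G : ℝ) * ((1 / 2 : ℝ) ^ k * F) =
          ∑ ψ : AddChar G ℂ, ∏ i, (1 + (ψ (c i)).re ^ 2) / 4 := by
        calc (Fintype.card G : ℝ) * ((1 / 2 : ℝ) ^ k * F)
            = (1 / 2 : ℝ) ^ k * ((Fintype.card G : ℝ) * F) := by ring
          _ = _ := by
            rw [e3, mul_sum]
            refine sum_congr rfl fun ψ _ => ?_
            have : (1 / 2 : ℝ) ^ k = ∏ _i : Fin k, (1 / 2 : ℝ) := by simp
            rw [this, ← prod_mul_distrib]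
            exact prod_congr rfl fun i _ => by ring
      rw [e]
      refine sum_le_sum fun ψ _ => ?_
      calc ∏ i, hpar (σ i) (ψ (c i)).re ≤ |∏ i, hpar (σ i) (ψ (c i)).re| := le_abs_self _
        _ = ∏ i, |hpar (σ i) (ψ (c i)).re| := by rw [abs_prod]
        _ ≤ _ := prod_le_prod (fun i _ => abs_nonneg _) fun i _ => abs_hpar_le _ _
    exact le_of_mul_le_mul_left h1 hg0
  have hE0 : ∀ σ, pat σ ∉ parSub V → E σ = 0 := by
    intro σ hσ
    apply sum_eq_zero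
    intro x _
    by_cases hx : ∑ i, ev (x i) • c i = 0
    · rw [if_pos hx]
      by_contra hne0
      have hne := prod_ne_zero_iff.1 hne0
      apply hσ
      refine ⟨fun i => ev (x i), (hc _ (fun i => ev_bound _)).1 hx, fun i => ?_⟩
      have h1 := hne i (mem_univ i)
      have h2 : par (x i) = σ i := by
        by_contra h
        rw [if_neg h] at h1
        exact h1 rfl
      rw [ev_par, h2]
      rfl
    · rw [if_neg hx]
  have hsum : (∑ x : Fin k → Fin 3 × Fin 3, if ∑ i, ev (x i) • c i = 0 then ∏ i, wp (x i) else 0) =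
      ∑ σ, E σ := by
    show _ = ∑ σ, ∑ x : Fin k → Fin 3 × Fin 3, _
    rw [sum_comm]
    refine sum_congr rfl fun x _ => ?_
    by_cases hx : ∑ i, ev (x i) • c i = 0
    · rw [if_pos hx]
      simp only [if_pos hx]
      have h := Finset.prod_univ_sum (fun _ : Fin k => (univ : Finset Bool))
        (fun i s => if par (x i) = s then wp (x i) else 0)
      rw [Fintype.piFinset_univ] at h
      rw [← h]
      refine prod_congr rfl fun i _ => ?_
      rw [sum_ite_eq]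
      simp
    · rw [if_neg hx]
      simp only [if_neg hx, sum_const_zero]
  rw [hsum]
  have h4 : ∑ σ, E σ = ∑ σ with pat σ ∈ parSub V, E σ := by
    rw [sum_filter]
    refine sum_congr rfl fun σ _ => ?_
    by_cases h : pat σ ∈ parSub V
    · rw [if_pos h]
    · rw [if_neg h, hE0 σ h]
  rw [h4]
  calc ∑ σ with pat σ ∈ parSub V, E σ ≤ ∑ σ : Fin k → Bool with pat σ ∈ parSub V, (1 / 2 : ℝ) ^ k * F :=
        sum_le_sum fun σ _ => hE σ
    _ = ((univ.filter fun s : Fin k → Bool => pat s ∈ parSub V).card : ℝ) * ((1 / 2 : ℝ) ^ k * F) := by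
        rw [sum_const, nsmul_eq_mul]
    _ ≤ (2 : ℝ) ^ finrank ℚ V * ((1 / 2 : ℝ) ^ k * F) := by
        apply mul_le_mul_of_nonneg_right _ (by positivity)
        exact_mod_cast card_pat_le V
    _ = (1 / 2 : ℝ) ^ (k - finrank ℚ V) * F := by
        have e : (1 / 2 : ℝ) ^ k = (1 / 2 : ℝ) ^ finrank ℚ V * (1 / 2 : ℝ) ^ (k - finrank ℚ V) := by
          rw [← pow_add, Nat.add_sub_cancel' hd]
        rw [e, ← mul_assoc, ← mul_assoc, ← mul_pow]
        norm_num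

open Classical in
theorem swap_cube {k : ℕ} (V : Submodule ℚ (Fin k → ℚ)) :
    (∑ x : Fin k → Fin 3 with vec x ∈ V, u x) ^ 3 ≤
      (1 / 2 : ℝ) ^ (k - finrank ℚ V) * (∑ x : Fin k → Fin 3 with vec x ∈ V, v x) ^ 3 := by
  obtain ⟨G, _, _, _, c, hc⟩ := exists_group V
  have hP := coll V c hc
  have hg0 : (0 : ℝ) < Fintype.card G := by exact_mod_cast Fintype.card_pos
  set P := (∑ x : Fin k → Fin 3 × Fin 3, if ∑ i, ev (x i) • c i = 0 then ∏ i, wp (x i) else 0)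
    with hPdef
  set f := ∑ x : Fin k → Fin 3 with vec x ∈ V, u x with hf
  set F := ∑ x : Fin k → Fin 3 with vec x ∈ V, v x with hF
  have hF0 : 0 ≤ F := sum_nonneg fun x _ => v_nonneg x
  have hf0 : 0 ≤ f := sum_nonneg fun x _ => u_nonneg x
  have e1 : (Fintype.card G : ℝ) * f = ∑ ψ : AddChar G ℂ, ∏ i, (1 + (ψ (c i)).re) / 2 := by
    rw [← fourier (fun _ => w4) val c (fun _ t => (1 + t) / 2) (fun _ z hz => cf4 z hz)]
    congr 1
    rw [hf, sum_filter]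
    refine sum_congr rfl fun x _ => ?_
    have h1 := hc (fun i => val (x i)) (fun i => val_bound _)
    by_cases hx : vec x ∈ V
    · rw [if_pos hx, if_pos (h1.2 hx)]; rfl
    · rw [if_neg hx, if_neg (fun h => hx (h1.1 h))]
  have e2 : (Fintype.card G : ℝ) * F = ∑ ψ : AddChar G ℂ, ∏ i, (3 + (ψ (c i)).re) / 4 := by
    rw [← fourier (fun _ => w8) val c (fun _ t => (3 + t) / 4) (fun _ z hz => cf8 z hz)]
    congr 1
    rw [hF, sum_filter]
    refine sum_congr rfl fun x _ => ?_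
    have h1 := hc (fun i => val (x i)) (fun i => val_bound _)
    by_cases hx : vec x ∈ V
    · rw [if_pos hx, if_pos (h1.2 hx)]; rfl
    · rw [if_neg hx, if_neg (fun h => hx (h1.1 h))]
  have e4 : (Fintype.card G : ℝ) * P = ∑ ψ : AddChar G ℂ, ∏ i, ((1 + (ψ (c i)).re) / 2) ^ 2 := by
    rw [← fourier (fun _ => wp) ev c (fun _ t => ((1 + t) / 2) ^ 2) (fun _ z hz => cfp z hz)]
  let a : AddChar G ℂ → ℝ := fun ψ => ∏ i, Real.sqrt ((1 + (ψ (c i)).re) / 2)
  have hre : ∀ (ψ : AddChar G ℂ) i, |(ψ (c i)).re| ≤ 1 := fun ψ i => abs_re_le' (norm_addChar' ψ _)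
  have hnn : ∀ (ψ : AddChar G ℂ) i, 0 ≤ (1 + (ψ (c i)).re) / 2 := by
    intro ψ i
    have := abs_le.1 (hre ψ i)
    linarith
  have ha0 : ∀ ψ ∈ (univ : Finset (AddChar G ℂ)), 0 ≤ a ψ := fun ψ _ =>
    prod_nonneg fun i _ => Real.sqrt_nonneg _
  have ha2 : ∀ ψ, a ψ ^ 2 = ∏ i, (1 + (ψ (c i)).re) / 2 := by
    intro ψ
    show (∏ i, Real.sqrt ((1 + (ψ (c i)).re) / 2)) ^ 2 = _
    rw [← prod_pow]
    exact prod_congr rfl fun i _ => Real.sq_sqrt (hnn ψ i)
  have ha4 : ∀ ψ, a ψ ^ 4 = ∏ i, ((1 + (ψ (c i)).re) / 2) ^ 2 := by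
    intro ψ
    have : a ψ ^ 4 = (a ψ ^ 2) ^ 2 := by ring
    rw [this, ha2, prod_pow]
  have ha1 : ∑ ψ, a ψ ≤ (Fintype.card G : ℝ) * F := by
    rw [e2]
    refine sum_le_sum fun ψ _ => ?_
    exact prod_le_prod (fun i _ => Real.sqrt_nonneg _) fun i _ => sqrt_le' (hre ψ i)
  have hH := hoelder univ a ha0
  simp only [ha2, ha4] at hH
  rw [← e1, ← e4] at hH
  have hP0 : 0 ≤ P := sum_nonneg fun x _ => by
    split_ifs
    · exact prod_nonneg fun i _ => (wp_pos _).le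
    · exact le_refl _
  have ha1' : 0 ≤ ∑ ψ, a ψ := sum_nonneg ha0
  have h5 : ((Fintype.card G : ℝ) * f) ^ 3 ≤
      ((Fintype.card G : ℝ) * F) ^ 2 * ((Fintype.card G : ℝ) * P) := by
    refine hH.trans (mul_le_mul_of_nonneg_right ?_ (by positivity))
    exact pow_le_pow_left₀ ha1' ha1 2
  have h6 : f ^ 3 ≤ F ^ 2 * P := by
    have : (Fintype.card G : ℝ) ^ 3 * f ^ 3 ≤ (Fintype.card G : ℝ) ^ 3 * (F ^ 2 * P) := by
      calc (Fintype.card G : ℝ) ^ 3 * f ^ 3 = ((Fintype.card G : ℝ) * f) ^ 3 := by ring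
        _ ≤ _ := h5
        _ = _ := by ring
    exact le_of_mul_le_mul_left this (by positivity)
  calc f ^ 3 ≤ F ^ 2 * P := h6
    _ ≤ F ^ 2 * ((1 / 2 : ℝ) ^ (k - finrank ℚ V) * F) :=
        mul_le_mul_of_nonneg_left hP (by positivity)
    _ = _ := by ring

open Classical in
/-- **swap lemma** -/
theorem swap {k : ℕ} (V : Submodule ℚ (Fin k → ℚ)) :
    (∑ x : Fin k → Fin 3 with vec x ∈ V, u x) ≤
      (2 : ℝ) ^ (-(((k - finrank ℚ V : ℕ) : ℝ)) / 3) *
        ∑ x : Fin k → Fin 3 with vec x ∈ V, v x := by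
  have h := swap_cube V
  have hF0 : 0 ≤ ∑ x : Fin k → Fin 3 with vec x ∈ V, v x := sum_nonneg fun x _ => v_nonneg x
  have e : ((2 : ℝ) ^ (-(((k - finrank ℚ V : ℕ) : ℝ)) / 3)) ^ 3 =
      (1 / 2 : ℝ) ^ (k - finrank ℚ V) := by
    rw [← Real.rpow_natCast, ← Real.rpow_mul (by norm_num)]
    have : (-(((k - finrank ℚ V : ℕ) : ℝ)) / 3) * ((3 : ℕ) : ℝ) = -((k - finrank ℚ V : ℕ) : ℝ) := by
      push_cast; ring
    rw [this, Real.rpow_neg (by norm_num), Real.rpow_natCast, one_div, inv_pow]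
  have h2 : (∑ x : Fin k → Fin 3 with vec x ∈ V, u x) ^ 3 ≤
      ((2 : ℝ) ^ (-(((k - finrank ℚ V : ℕ) : ℝ)) / 3) *
        ∑ x : Fin k → Fin 3 with vec x ∈ V, v x) ^ 3 := by
    rw [mul_pow, e]
    exact h
  exact le_of_pow_le_pow_left₀ (by norm_num) (by positivity) h2

end Vale.Agent.P160.RD.Swap304
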