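import Vale.Agent.P160.RD.SwapA304

/-!
# P160, block (M), leaf M/RQ, part (1): characters and the swap inequality
-/

namespace Vale.Agent.P160.RD.Swap304

open Finset Module

section fourier

variable {G : Type} [AddCommGroup G] [Fintype G] [DecidableEq G]

omit [Fintype G] [DecidableEq G] in
theorem addChar_sum' {κ : Type*} (ψ : AddChar G ℂ) (s : Finset κ) (f : κ → G) :
    ψ (∑ i ∈ s, f i) = ∏ i ∈ s, ψ (f i) := by
  classical
  induction s using Finset.induction_on with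
  | empty => simp
  | insert a s ha ih => rw [sum_insert ha, prod_insert ha, AddChar.map_add_eq_mul, ih]

omit [DecidableEq G] in
theorem norm_addChar' (ψ : AddChar G ℂ) (g : G) : ‖ψ g‖ = 1 := AddChar.norm_apply ψ g

theorem fourier {Ω : Type} [Fintype Ω] [DecidableEq Ω] {k : ℕ}
    (w : Fin k → Ω → ℝ) (e : Ω → ℤ) (c : Fin k → G) (g : Fin k → ℝ → ℝ)
    (hg : ∀ i (z : ℂ), ‖z‖ = 1 → ∑ b, (w i b : ℂ) * z ^ (e b) = ((g i z.re : ℝ) : ℂ)) :
    (Fintype.card G : ℝ) *
        (∑ x : Fin k → Ω, if ∑ i, e (x i) • c i = 0 then ∏ i, w i (x i) else 0) =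
      ∑ ψ : AddChar G ℂ, ∏ i, g i (ψ (c i)).re := by
  have h1 : ∀ ψ : AddChar G ℂ, ((∏ i, g i (ψ (c i)).re : ℝ) : ℂ) =
      ∑ x : Fin k → Ω, ((∏ i, w i (x i) : ℝ) : ℂ) * ψ (∑ i, e (x i) • c i) := by
    intro ψ
    have h2 := Finset.prod_univ_sum (fun _ : Fin k => (univ : Finset Ω))
      (fun i b => (w i b : ℂ) * (ψ (c i)) ^ (e b))
    rw [Fintype.piFinset_univ] at h2
    rw [Complex.ofReal_prod]
    rw [← prod_congr rfl fun i _ => hg i (ψ (c i)) (norm_addChar' ψ _), h2]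
    refine sum_congr rfl fun x _ => ?_
    rw [prod_mul_distrib, addChar_sum', Complex.ofReal_prod]
    congr 1
    refine prod_congr rfl fun i _ => ?_
    rw [AddChar.map_zsmul_eq_zpow]
  have h3 : (((Fintype.card G : ℝ) *
        (∑ x : Fin k → Ω, if ∑ i, e (x i) • c i = 0 then ∏ i, w i (x i) else 0) : ℝ) : ℂ) =
      ((∑ ψ : AddChar G ℂ, ∏ i, g i (ψ (c i)).re : ℝ) : ℂ) := by
    rw [Complex.ofReal_sum]
    simp only [h1]
    rw [sum_comm, Complex.ofReal_mul, Complex.ofReal_sum, mul_sum]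
    refine sum_congr rfl fun x _ => ?_
    rw [← mul_sum, AddChar.sum_apply_eq_ite]
    by_cases hx : ∑ i, e (x i) • c i = 0
    · rw [if_pos hx, if_pos hx]
      push_cast
      ring
    · rw [if_neg hx, if_neg hx]
      simp
  exact_mod_cast h3

end fourier

/-! ### characteristic functions -/

theorem inv_eq_conj' {z : ℂ} (hz : ‖z‖ = 1) : z⁻¹ = (starRingEnd ℂ) z := by
  rw [Complex.inv_def, Complex.normSq_eq_norm_sq, hz]; simp

theorem add_inv' {z : ℂ} (hz : ‖z‖ = 1) : z + z⁻¹ = 2 * (z.re : ℂ) := by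
  rw [inv_eq_conj' hz, Complex.add_conj]
  push_cast
  ring

theorem mul_inv' {z : ℂ} (hz : ‖z‖ = 1) : z * z⁻¹ = 1 := by
  apply mul_inv_cancel₀
  intro h
  rw [h] at hz
  simp at hz

theorem abs_re_le' {z : ℂ} (hz : ‖z‖ = 1) : |z.re| ≤ 1 := by
  have := Complex.abs_re_le_norm z
  rwa [hz] at this

theorem w4_0 : w4 0 = 1 / 2 := by simp [w4]
theorem w4_1 : w4 1 = 1 / 4 := by simp [w4]
theorem w4_2 : w4 2 = 1 / 4 := by
  unfold w4; rw [if_neg (by decide)]
theorem w8_0 : w8 0 = 3 / 4 := by simp [w8]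
theorem w8_1 : w8 1 = 1 / 8 := by simp [w8]
theorem w8_2 : w8 2 = 1 / 8 := by
  unfold w8; rw [if_neg (by decide)]
theorem val_0 : val 0 = 0 := by decide
theorem val_1 : val 1 = 1 := by decide
theorem val_2 : val 2 = -1 := by decide

theorem cf4 (z : ℂ) (hz : ‖z‖ = 1) :
    ∑ b, (w4 b : ℂ) * z ^ (val b) = (((1 + z.re) / 2 : ℝ) : ℂ) := by
  have h := add_inv' hz
  rw [Fin.sum_univ_three, w4_0, w4_1, w4_2, val_0, val_1, val_2, zpow_zero, zpow_one, zpow_neg_one]
  push_cast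
  linear_combination (1 / 4 : ℂ) * h

theorem cf8 (z : ℂ) (hz : ‖z‖ = 1) :
    ∑ b, (w8 b : ℂ) * z ^ (val b) = (((3 + z.re) / 4 : ℝ) : ℂ) := by
  have h := add_inv' hz
  rw [Fin.sum_univ_three, w8_0, w8_1, w8_2, val_0, val_1, val_2, zpow_zero, zpow_one, zpow_neg_one]
  push_cast
  linear_combination (1 / 8 : ℂ) * h

theorem sq_add_inv' {z : ℂ} (hz : ‖z‖ = 1) :
    z ^ (2 : ℤ) + z ^ (-2 : ℤ) = 4 * (z.re : ℂ) ^ 2 - 2 := by
  have h := add_inv' hz
  have h2 := mul_inv' hz
  have e1 : z ^ (2 : ℤ) = z * z := by rw [zpow_two]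
  have e2 : z ^ (-2 : ℤ) = z⁻¹ * z⁻¹ := by rw [zpow_neg, e1, mul_inv]
  rw [e1, e2]
  have : (z + z⁻¹) ^ 2 = (2 * (z.re : ℂ)) ^ 2 := by rw [h]
  linear_combination this - 2 * h2

theorem cf8d (z : ℂ) (hz : ‖z‖ = 1) :
    ∑ b, (w8 b : ℂ) * z ^ (2 * val b) = (((1 + z.re ^ 2) / 2 : ℝ) : ℂ) := by
  have h3 := sq_add_inv' hz
  have e0 : (2 : ℤ) * 0 = 0 := by norm_num
  have e1 : (2 : ℤ) * 1 = 2 := by norm_num
  have e2 : (2 : ℤ) * (-1) = -2 := by norm_num
  rw [Fin.sum_univ_three, w8_0, w8_1, w8_2, val_0, val_1, val_2, e0, e1, e2, zpow_zero]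
  push_cast
  linear_combination (1 / 8 : ℂ) * h3

/-- difference of two values -/
def ev (p : Fin 3 × Fin 3) : ℤ := val p.1 - val p.2

/-- the difference is odd -/
def par (p : Fin 3 × Fin 3) : Bool := decide (¬ ((p.1 = 0) ↔ (p.2 = 0)))

/-- pair weight -/
noncomputable def wp (p : Fin 3 × Fin 3) : ℝ := w4 p.1 * w4 p.2

theorem wp_pos (p : Fin 3 × Fin 3) : 0 < wp p := mul_pos (w4_pos _) (w4_pos _)

/-- characteristic function of the pairs with given parity -/
noncomputable def hpar (s : Bool) (t : ℝ) : ℝ := if s then t / 2 else (1 + t ^ 2) / 4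

theorem ev_00 : ev (0, 0) = 0 := by decide
theorem ev_01 : ev (0, 1) = -1 := by decide
theorem ev_02 : ev (0, 2) = 1 := by decide
theorem ev_10 : ev (1, 0) = 1 := by decide
theorem ev_11 : ev (1, 1) = 0 := by decide
theorem ev_12 : ev (1, 2) = 2 := by decide
theorem ev_20 : ev (2, 0) = -1 := by decide
theorem ev_21 : ev (2, 1) = -2 := by decide
theorem ev_22 : ev (2, 2) = 0 := by decide
theorem par_00 : par (0, 0) = false := by decide
theorem par_01 : par (0, 1) = true := by decide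
theorem par_02 : par (0, 2) = true := by decide
theorem par_10 : par (1, 0) = true := by decide
theorem par_11 : par (1, 1) = false := by decide
theorem par_12 : par (1, 2) = false := by decide
theorem par_20 : par (2, 0) = true := by decide
theorem par_21 : par (2, 1) = false := by decide
theorem par_22 : par (2, 2) = false := by decide

theorem cfp (z : ℂ) (hz : ‖z‖ = 1) :
    ∑ p, (wp p : ℂ) * z ^ (ev p) = ((((1 + z.re) / 2) ^ 2 : ℝ) : ℂ) := by
  have h := add_inv' hz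
  have h3 := sq_add_inv' hz
  rw [Fintype.sum_prod_type]
  simp only [Fin.sum_univ_three, wp, w4_0, w4_1, w4_2, ev_00, ev_01, ev_02, ev_10, ev_11, ev_12,
    ev_20, ev_21, ev_22, zpow_zero, zpow_one, zpow_neg_one]
  push_cast
  linear_combination (1 / 4 : ℂ) * h + (1 / 16 : ℂ) * h3

theorem cfpar (s : Bool) (z : ℂ) (hz : ‖z‖ = 1) :
    ∑ p, ((if par p = s then wp p else 0 : ℝ) : ℂ) * z ^ (ev p) = ((hpar s z.re : ℝ) : ℂ) := by
  have h := add_inv' hz
  have h3 := sq_add_inv' hz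
  rw [Fintype.sum_prod_type]
  cases s
  · simp only [Fin.sum_univ_three, wp, w4_0, w4_1, w4_2, ev_00, ev_01, ev_02, ev_10, ev_11, ev_12,
      ev_20, ev_21, ev_22, zpow_zero, zpow_one, zpow_neg_one, par_00, par_01, par_02, par_10,
      par_11, par_12, par_20, par_21, par_22, hpar, if_true, if_false,
      Bool.false_eq_true]
    push_cast
    linear_combination (1 / 16 : ℂ) * h3
  · simp only [Fin.sum_univ_three, wp, w4_0, w4_1, w4_2, ev_00, ev_01, ev_02, ev_10, ev_11, ev_12,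
      ev_20, ev_21, ev_22, zpow_zero, zpow_one, zpow_neg_one, par_00, par_01, par_02, par_10,
      par_11, par_12, par_20, par_21, par_22, hpar, if_true, if_false,
      Bool.false_eq_true]
    push_cast
    linear_combination (1 / 4 : ℂ) * h

theorem ev_bound (p : Fin 3 × Fin 3) : |ev p| ≤ 2 := by
  revert p; unfold ev val; decide

theorem ev_par (p : Fin 3 × Fin 3) : ((ev p : ℤ) : ZMod 2) = if par p then 1 else 0 := by
  revert p; unfold ev val par; decide

theorem val_bound (b : Fin 3) : |val b| ≤ 2 := by revert b; unfold val; decide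
theorem val_bound2 (b : Fin 3) : |2 * val b| ≤ 2 := by revert b; unfold val; decide

end Vale.Agent.P160.RD.Swap304
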