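import Vale.Agent.P160.RD.GrowthA304
import Vale.Agent.P160.RD.SwapB304

/-!
# P160, block (M): the growth lemma (770 11125 (G), 519 11118 (A)) in discrete form, `mu = 1/4`

`growth`: `V` a rational subspace of codimension `r`:
`P_{(1/2,1/4,1/4)}(x ∈ V) ≤ (3/4)^r P_{(3/4,1/8,1/8)}(x ∈ V)`.
-/

namespace Vale.Agent.P160.RD.Growth304

open Finset Module Vale.Agent.P160.RD.Swap304

section fourier

variable {G : Type} [AddCommGroup G] [Fintype G] [DecidableEq G]

/-- Fourier inversion with complex weights -/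
theorem fourierC {k : ℕ} (W : Fin k → Fin 3 → ℂ) (c : Fin k → G) :
    (Fintype.card G : ℂ) *
        (∑ x : Fin k → Fin 3, if ∑ i, Swap304.val (x i) • c i = 0 then ∏ i, W i (x i) else 0) =
      ∑ ψ : AddChar G ℂ, ∏ i, ∑ b, W i b * (ψ (c i)) ^ (Swap304.val b) := by
  have h1 : ∀ ψ : AddChar G ℂ, ∏ i, ∑ b, W i b * (ψ (c i)) ^ (Swap304.val b) =
      ∑ x : Fin k → Fin 3, (∏ i, W i (x i)) * ψ (∑ i, Swap304.val (x i) • c i) := by
    intro ψ
    have h2 := Finset.prod_univ_sum (fun _ : Fin k => (univ : Finset (Fin 3)))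
      (fun i b => W i b * (ψ (c i)) ^ (Swap304.val b))
    rw [Fintype.piFinset_univ] at h2
    rw [h2]
    refine sum_congr rfl fun x _ => ?_
    rw [prod_mul_distrib, addChar_sum']
    congr 1
    refine prod_congr rfl fun i _ => ?_
    rw [AddChar.map_zsmul_eq_zpow]
  simp only [h1]
  rw [sum_comm, mul_sum]
  refine sum_congr rfl fun x _ => ?_
  rw [← mul_sum, AddChar.sum_apply_eq_ite]
  by_cases hx : ∑ i, Swap304.val (x i) • c i = 0
  · rw [if_pos hx, if_pos hx]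
    ring
  · rw [if_neg hx, if_neg hx]
    simp

end fourier

/-- the lazy law -/
noncomputable def nu (s : ℝ) (b : Fin 3) : ℝ := if b = 0 then 1 - s else s / 2

theorem nu_0 (s : ℝ) : nu s 0 = 1 - s := by simp [nu]
theorem nu_1 (s : ℝ) : nu s 1 = s / 2 := by simp [nu]
theorem nu_2 (s : ℝ) : nu s 2 = s / 2 := by unfold nu; rw [if_neg (by decide)]

theorem sub_inv' {z : ℂ} (hz : ‖z‖ = 1) : z - z⁻¹ = 2 * (z.im : ℂ) * Complex.I := by
  rw [inv_eq_conj' hz, Complex.sub_conj]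
  push_cast
  ring

theorem cf_nu (s : ℝ) (z : ℂ) (hz : ‖z‖ = 1) :
    ∑ b, (nu s b : ℂ) * z ^ (Swap304.val b) = ((1 - s + s * z.re : ℝ) : ℂ) := by
  have h := add_inv' hz
  rw [Fin.sum_univ_three, nu_0, nu_1, nu_2, val_0, val_1, val_2, zpow_zero, zpow_one, zpow_neg_one]
  push_cast
  linear_combination (s / 2 : ℂ) * h

theorem cf_nu1 (s : ℝ) (z : ℂ) (hz : ‖z‖ = 1) :
    ∑ b, (nu s b : ℂ) * ((Swap304.val b : ℤ) : ℂ) * z ^ (Swap304.val b) =
      (s * z.im : ℝ) * Complex.I := by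
  have h := sub_inv' hz
  rw [Fin.sum_univ_three, nu_0, nu_1, nu_2, val_0, val_1, val_2, zpow_zero, zpow_one, zpow_neg_one]
  push_cast
  linear_combination (s / 2 : ℂ) * h

theorem cf_nu2 (s : ℝ) (z : ℂ) (hz : ‖z‖ = 1) :
    ∑ b, (nu s b : ℂ) * ((Swap304.val b : ℤ) : ℂ) * ((Swap304.val b : ℤ) : ℂ) *
      z ^ (Swap304.val b) = ((s * z.re : ℝ) : ℂ) := by
  have h := add_inv' hz
  rw [Fin.sum_univ_three, nu_0, nu_1, nu_2, val_0, val_1, val_2, zpow_zero, zpow_one, zpow_neg_one]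
  push_cast
  linear_combination (s / 2 : ℂ) * h

/-- weights with marked coordinates `l`, `m` -/
noncomputable def Wlm {k : ℕ} (s : ℝ) (l m i : Fin k) (b : Fin 3) : ℂ :=
  (nu s b : ℂ) * (if i = l then ((Swap304.val b : ℤ) : ℂ) else 1) *
    (if i = m then ((Swap304.val b : ℤ) : ℂ) else 1)

theorem prod_Wlm {k : ℕ} (s : ℝ) (l m : Fin k) (x : Fin k → Fin 3) :
    ∏ i, Wlm s l m i (x i) =
      (∏ i, (nu s (x i) : ℂ)) * ((Swap304.val (x l) : ℤ) : ℂ) * ((Swap304.val (x m) : ℤ) : ℂ) := by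
  unfold Wlm
  rw [prod_mul_distrib, prod_mul_distrib]
  simp [Finset.prod_ite_eq']

/-- product of the characteristic functions with marked coordinates -/
theorem cf_prod {k : ℕ} (s : ℝ) (z : Fin k → ℂ) (hz : ∀ i, ‖z i‖ = 1)
    (hq : ∀ i, 1 - s + s * (z i).re ≠ 0) (l m : Fin k) :
    ∏ i, ∑ b, Wlm s l m i b * (z i) ^ (Swap304.val b) =
      ((∏ i, (1 - s + s * (z i).re) : ℝ) : ℂ) *
        (((if l = m then s * (z l).re / (1 - s + s * (z l).re) +
            s ^ 2 * ((z l).im / (1 - s + s * (z l).re)) ^ 2 else 0) -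
          s ^ 2 * ((z l).im / (1 - s + s * (z l).re)) *
            ((z m).im / (1 - s + s * (z m).re)) : ℝ) : ℂ) := by
  have hqC : ∀ i, ((1 - s + s * (z i).re : ℝ) : ℂ) ≠ 0 := fun i => by exact_mod_cast hq i
  by_cases hlm : l = m
  · subst hlm
    have h1 : ∀ i, ∑ b, Wlm s l l i b * (z i) ^ (Swap304.val b) =
        ((1 - s + s * (z i).re : ℝ) : ℂ) *
          (if i = l then ((s * (z l).re / (1 - s + s * (z l).re) : ℝ) : ℂ) else 1) := by
      intro i
      by_cases hi : i = l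
      · subst hi
        simp only [Wlm, if_true]
        rw [cf_nu2 s (z i) (hz i)]
        have := hqC i
        rw [← Complex.ofReal_mul]
        congr 1
        have h0 := hq i
        field_simp
      · simp only [Wlm, if_neg hi, mul_one]
        rw [cf_nu s (z i) (hz i)]
    simp only [h1]
    rw [prod_mul_distrib, Finset.prod_ite_eq' univ l, if_pos (mem_univ l), if_pos trivial]
    rw [Complex.ofReal_prod]
    congr 2
    ring
  · have h1 : ∀ i, ∑ b, Wlm s l m i b * (z i) ^ (Swap304.val b) =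
        ((1 - s + s * (z i).re : ℝ) : ℂ) *
          (if i = l then ((s * ((z l).im / (1 - s + s * (z l).re)) : ℝ) : ℂ) * Complex.I else 1) *
          (if i = m then ((s * ((z m).im / (1 - s + s * (z m).re)) : ℝ) : ℂ) * Complex.I
            else 1) := by
      intro i
      by_cases hi : i = l
      · subst hi
        simp only [Wlm, if_true, if_neg hlm, mul_one]
        rw [cf_nu1 s (z i) (hz i), ← mul_assoc, ← Complex.ofReal_mul]
        congr 2
        have h0 := hq i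
        field_simp
      · by_cases hi' : i = m
        · subst hi'
          simp only [Wlm, if_true, if_neg hi, mul_one]
          rw [cf_nu1 s (z i) (hz i), ← mul_assoc, ← Complex.ofReal_mul]
          congr 2
          have h0 := hq i
          field_simp
        · simp only [Wlm, if_neg hi, if_neg hi', mul_one]
          rw [cf_nu s (z i) (hz i)]
    simp only [h1]
    rw [prod_mul_distrib, prod_mul_distrib, Finset.prod_ite_eq' univ l, Finset.prod_ite_eq' univ m,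
      if_pos (mem_univ l), if_pos (mem_univ m), if_neg hlm]
    rw [Complex.ofReal_prod]
    have hI := Complex.I_mul_I
    push_cast
    linear_combination (∏ i, (1 - (s : ℂ) + s * ((z i).re : ℂ))) *
      (s * (((z l).im : ℂ) / (1 - s + s * ((z l).re : ℂ)))) *
      (s * (((z m).im : ℂ) / (1 - s + s * ((z m).re : ℂ)))) * hI

/-- **second moment identity** -/
theorem second_moment {k : ℕ} {G : Type} [AddCommGroup G] [Fintype G] [DecidableEq G]
    (c : Fin k → G) (s : ℝ) (hs0 : 0 < s) (hs1 : s < 1 / 2) (w : Fin k → ℝ)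
    (hw : ∀ x : Fin k → Fin 3, ∑ i, Swap304.val (x i) • c i = 0 →
      ∑ i, w i * ((Swap304.val (x i) : ℤ) : ℝ) = 0) :
    ∑ ψ : AddChar G ℂ, (∏ i, (1 - s + s * (ψ (c i)).re)) *
      ((∑ l, w l ^ 2 * (s * (ψ (c l)).re / (1 - s + s * (ψ (c l)).re) +
            s ^ 2 * ((ψ (c l)).im / (1 - s + s * (ψ (c l)).re)) ^ 2)) -
        s ^ 2 * (∑ l, w l * ((ψ (c l)).im / (1 - s + s * (ψ (c l)).re))) ^ 2) = 0 := by
  have hq : ∀ (ψ : AddChar G ℂ) i, 1 - s + s * (ψ (c i)).re ≠ 0 := by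
    intro ψ i
    have h1 := abs_le.1 (abs_re_le' (norm_addChar' ψ (c i)))
    have : 0 < 1 - s + s * (ψ (c i)).re := by nlinarith [h1.1]
    exact this.ne'
  -- the double sum
  have h1 : ∑ l, ∑ m, ((w l : ℂ) * (w m : ℂ)) * ((Fintype.card G : ℂ) *
      (∑ x : Fin k → Fin 3, if ∑ i, Swap304.val (x i) • c i = 0 then
        ∏ i, Wlm s l m i (x i) else 0)) = 0 := by
    have e1 : ∀ l m, ((w l : ℂ) * (w m : ℂ)) * ((Fintype.card G : ℂ) *
      (∑ x : Fin k → Fin 3, if ∑ i, Swap304.val (x i) • c i = 0 then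
        ∏ i, Wlm s l m i (x i) else 0)) = ∑ x : Fin k → Fin 3, (Fintype.card G : ℂ) *
        ((if ∑ i, Swap304.val (x i) • c i = 0 then ∏ i, (nu s (x i) : ℂ) else 0) *
          ((w l : ℂ) * ((Swap304.val (x l) : ℤ) : ℂ)) *
          ((w m : ℂ) * ((Swap304.val (x m) : ℤ) : ℂ))) := by
      intro l m
      rw [mul_sum, mul_sum]
      refine sum_congr rfl fun x _ => ?_
      by_cases hx : ∑ i, Swap304.val (x i) • c i = 0
      · rw [if_pos hx, if_pos hx, prod_Wlm]; ring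
      · rw [if_neg hx, if_neg hx]; ring
    simp only [e1]
    have e2 : ∀ l, ∑ m, ∑ x : Fin k → Fin 3, (Fintype.card G : ℂ) *
        ((if ∑ i, Swap304.val (x i) • c i = 0 then ∏ i, (nu s (x i) : ℂ) else 0) *
          ((w l : ℂ) * ((Swap304.val (x l) : ℤ) : ℂ)) *
          ((w m : ℂ) * ((Swap304.val (x m) : ℤ) : ℂ))) = 0 := by
      intro l
      rw [sum_comm]
      apply sum_eq_zero
      intro x _
      rw [← mul_sum, ← mul_sum]
      by_cases hx : ∑ i, Swap304.val (x i) • c i = 0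
      · have h2 := hw x hx
        have h3 : ∑ i, (w i : ℂ) * ((Swap304.val (x i) : ℤ) : ℂ) = 0 := by
          have : ((∑ i, w i * ((Swap304.val (x i) : ℤ) : ℝ) : ℝ) : ℂ) = 0 := by rw [h2]; simp
          push_cast at this
          exact this
        rw [h3]; simp
      · rw [if_neg hx]; simp
    exact sum_eq_zero fun l _ => e2 l
  have h2 : ((∑ ψ : AddChar G ℂ, (∏ i, (1 - s + s * (ψ (c i)).re)) *
      ((∑ l, w l ^ 2 * (s * (ψ (c l)).re / (1 - s + s * (ψ (c l)).re) +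
            s ^ 2 * ((ψ (c l)).im / (1 - s + s * (ψ (c l)).re)) ^ 2)) -
        s ^ 2 * (∑ l, w l * ((ψ (c l)).im / (1 - s + s * (ψ (c l)).re))) ^ 2) : ℝ) : ℂ) = 0 := by
    rw [← h1, Complex.ofReal_sum]
    have e3 : ∀ l m, (Fintype.card G : ℂ) *
      (∑ x : Fin k → Fin 3, if ∑ i, Swap304.val (x i) • c i = 0 then
        ∏ i, Wlm s l m i (x i) else 0) = ∑ ψ : AddChar G ℂ,
          ((∏ i, (1 - s + s * (ψ (c i)).re) : ℝ) : ℂ) *
        (((if l = m then s * (ψ (c l)).re / (1 - s + s * (ψ (c l)).re) +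
            s ^ 2 * ((ψ (c l)).im / (1 - s + s * (ψ (c l)).re)) ^ 2 else 0) -
          s ^ 2 * ((ψ (c l)).im / (1 - s + s * (ψ (c l)).re)) *
            ((ψ (c m)).im / (1 - s + s * (ψ (c m)).re)) : ℝ) : ℂ) := by
      intro l m
      rw [fourierC]
      refine sum_congr rfl fun ψ _ => ?_
      exact cf_prod s (fun i => ψ (c i)) (fun i => norm_addChar' ψ _) (fun i => hq ψ i) l m
    simp only [e3]
    have e4 : ∀ l, ∑ m, ((w l : ℂ) * (w m : ℂ)) * ∑ ψ : AddChar G ℂ,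
          ((∏ i, (1 - s + s * (ψ (c i)).re) : ℝ) : ℂ) *
        (((if l = m then s * (ψ (c l)).re / (1 - s + s * (ψ (c l)).re) +
            s ^ 2 * ((ψ (c l)).im / (1 - s + s * (ψ (c l)).re)) ^ 2 else 0) -
          s ^ 2 * ((ψ (c l)).im / (1 - s + s * (ψ (c l)).re)) *
            ((ψ (c m)).im / (1 - s + s * (ψ (c m)).re)) : ℝ) : ℂ) =
        ∑ ψ : AddChar G ℂ, (((∏ i, (1 - s + s * (ψ (c i)).re)) *
          (w l ^ 2 * (s * (ψ (c l)).re / (1 - s + s * (ψ (c l)).re) +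
            s ^ 2 * ((ψ (c l)).im / (1 - s + s * (ψ (c l)).re)) ^ 2) -
          s ^ 2 * (w l * ((ψ (c l)).im / (1 - s + s * (ψ (c l)).re))) *
            ∑ m, w m * ((ψ (c m)).im / (1 - s + s * (ψ (c m)).re))) : ℝ) : ℂ) := by
      intro l
      have e5 : ∀ m, ((w l : ℂ) * (w m : ℂ)) * ∑ ψ : AddChar G ℂ,
          ((∏ i, (1 - s + s * (ψ (c i)).re) : ℝ) : ℂ) *
        (((if l = m then s * (ψ (c l)).re / (1 - s + s * (ψ (c l)).re) +
            s ^ 2 * ((ψ (c l)).im / (1 - s + s * (ψ (c l)).re)) ^ 2 else 0) -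
          s ^ 2 * ((ψ (c l)).im / (1 - s + s * (ψ (c l)).re)) *
            ((ψ (c m)).im / (1 - s + s * (ψ (c m)).re)) : ℝ) : ℂ) =
          ∑ ψ : AddChar G ℂ, (((∏ i, (1 - s + s * (ψ (c i)).re)) *
          ((if l = m then w l * w m * (s * (ψ (c l)).re / (1 - s + s * (ψ (c l)).re) +
            s ^ 2 * ((ψ (c l)).im / (1 - s + s * (ψ (c l)).re)) ^ 2) else 0) -
          s ^ 2 * (w l * ((ψ (c l)).im / (1 - s + s * (ψ (c l)).re))) *
            (w m * ((ψ (c m)).im / (1 - s + s * (ψ (c m)).re)))) : ℝ) : ℂ) := by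
        intro m
        rw [mul_sum]
        refine sum_congr rfl fun ψ _ => ?_
        rw [← Complex.ofReal_mul, ← Complex.ofReal_mul, ← Complex.ofReal_mul]
        congr 1
        split_ifs <;> ring
      simp only [e5]
      rw [sum_comm]
      refine sum_congr rfl fun ψ _ => ?_
      rw [← Complex.ofReal_sum]
      congr 1
      rw [← mul_sum, sum_sub_distrib, Finset.sum_ite_eq, if_pos (mem_univ l), ← mul_sum]
      ring
    simp only [e4]
    rw [sum_comm]
    refine sum_congr rfl fun ψ _ => ?_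
    rw [← Complex.ofReal_sum]
    congr 1
    rw [← mul_sum, sum_sub_distrib]
    congr 1
    congr 1
    rw [← sum_mul, ← mul_sum]
    ring
  exact_mod_cast h2

/-- pointwise inequality -/
theorem pointwise {p s u M : ℝ} (hp0 : 0 ≤ p) (hp1 : p ≤ 1) (hs0 : 0 < s) (hs1 : s < 1 / 2)
    (hu0 : 0 ≤ u) (hu2 : u ≤ 2) (hM : (s ≤ 1 / 3 ∧ M = 1 - s) ∨ (1 / 3 ≤ s ∧ M = 2 * s)) :
    p * (1 - ((1 - u) / (1 - s * u) + s * (u * (2 - u)) / (1 - s * u) ^ 2)) +
      s * (u * (2 - u)) / (1 - s * u) ^ 2 ≤ M * (u / (1 - s * u)) := by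
  have hq : 0 < 1 - s * u := by nlinarith
  have hkey : u * (p * (1 - 3 * s + s ^ 2 * u) + s * (2 - u)) ≤ u * (M * (1 - s * u)) := by
    apply mul_le_mul_of_nonneg_left _ hu0
    rcases hM with ⟨h1, rfl⟩ | ⟨h1, rfl⟩
    · have h2 : 0 ≤ 1 - 3 * s + s ^ 2 * u := by nlinarith [sq_nonneg s, mul_nonneg (sq_nonneg s) hu0]
      nlinarith [mul_le_mul_of_nonneg_right hp1 h2]
    · rcases le_total (1 - 3 * s + s ^ 2 * u) 0 with h2 | h2
      · have h3 : p * (1 - 3 * s + s ^ 2 * u) ≤ 0 := mul_nonpos_of_nonneg_of_nonpos hp0 h2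
        have h4 : 0 ≤ s * u * (1 - 2 * s) := by
          apply mul_nonneg (mul_nonneg hs0.le hu0); linarith
        nlinarith
      · have h3 := mul_le_mul_of_nonneg_right hp1 h2
        have h4 : 0 ≤ (3 * s - 1) * (1 - s * u) := mul_nonneg (by linarith) hq.le
        nlinarith
  have e1 : p * (1 - ((1 - u) / (1 - s * u) + s * (u * (2 - u)) / (1 - s * u) ^ 2)) +
      s * (u * (2 - u)) / (1 - s * u) ^ 2 =
      u * (p * (1 - 3 * s + s ^ 2 * u) + s * (2 - u)) / (1 - s * u) ^ 2 := by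
    have hq' : 1 - s * u ≠ 0 := hq.ne'
    obtain ⟨v, hv⟩ : ∃ v, v = ((1 - s * u) ^ 2)⁻¹ := ⟨_, rfl⟩
    have hv1 : (1 - s * u) ^ 2 * v = 1 := by rw [hv]; exact mul_inv_cancel₀ (pow_ne_zero 2 hq')
    have hv2 : (1 - s * u)⁻¹ = (1 - s * u) * v := by
      rw [hv]; field_simp
    rw [div_eq_mul_inv, div_eq_mul_inv, div_eq_mul_inv, hv2, ← hv]
    linear_combination (-p) * hv1
  have e2 : M * (u / (1 - s * u)) = u * (M * (1 - s * u)) / (1 - s * u) ^ 2 := by
    have hq' : 1 - s * u ≠ 0 := hq.ne'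
    field_simp
  rw [e1, e2]
  exact div_le_div_of_nonneg_right hkey (by positivity)

open Classical in
/-- **growth lemma**, `mu = 1/4` -/
theorem growth {k : ℕ} (V : Submodule ℚ (Fin k → ℚ)) :
    (∑ x : Fin k → Fin 3 with vec x ∈ V, Swap304.u x) ≤
      (3 / 4 : ℝ) ^ (k - finrank ℚ V) * ∑ x : Fin k → Fin 3 with vec x ∈ V, Swap304.v x := by
  obtain ⟨G, _, _, _, c, hc⟩ := exists_group V
  obtain ⟨m, w, hm, hw1, hw2, hw3⟩ := exists_orth V
  have hg0 : (0 : ℝ) < Fintype.card G := by exact_mod_cast Fintype.card_pos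
  let U : AddChar G ℂ → Fin k → ℝ := fun ψ i => 1 - (ψ (c i)).re
  have hre : ∀ (ψ : AddChar G ℂ) i, |(ψ (c i)).re| ≤ 1 := fun ψ i => abs_re_le' (norm_addChar' ψ _)
  have hU0 : ∀ ψ i, 0 ≤ U ψ i := fun ψ i => by
    have := (abs_le.1 (hre ψ i)).2
    simp only [U]; linarith
  have hU2 : ∀ ψ i, U ψ i ≤ 2 := fun ψ i => by
    have := (abs_le.1 (hre ψ i)).1
    simp only [U]; linarith
  have hmem : ∀ x : Fin k → Fin 3, ∑ i, Swap304.val (x i) • c i = 0 ↔ vec x ∈ V :=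
    fun x => hc (fun i => Swap304.val (x i)) (fun i => val_bound _)
  have e1 : (Fintype.card G : ℝ) * (∑ x : Fin k → Fin 3 with vec x ∈ V, Swap304.u x) =
      Zf U (1 / 2) := by
    have h := fourier (fun _ => w4) Swap304.val c (fun _ t => (1 + t) / 2) (fun _ z hz => cf4 z hz)
    have h2 : Zf U (1 / 2) = ∑ ψ : AddChar G ℂ, ∏ i, (1 + (ψ (c i)).re) / 2 := by
      unfold Zf
      refine sum_congr rfl fun ψ _ => prod_congr rfl fun i _ => ?_
      simp only [U]; ring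
    rw [h2, ← h]
    congr 1
    rw [sum_filter]
    refine sum_congr rfl fun x _ => ?_
    by_cases hx : vec x ∈ V
    · rw [if_pos hx, if_pos ((hmem x).2 hx)]; rfl
    · rw [if_neg hx, if_neg (fun h => hx ((hmem x).1 h))]
  have e2 : (Fintype.card G : ℝ) * (∑ x : Fin k → Fin 3 with vec x ∈ V, Swap304.v x) =
      Zf U (1 / 4) := by
    have h := fourier (fun _ => w8) Swap304.val c (fun _ t => (3 + t) / 4) (fun _ z hz => cf8 z hz)
    have h2 : Zf U (1 / 4) = ∑ ψ : AddChar G ℂ, ∏ i, (3 + (ψ (c i)).re) / 4 := by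
      unfold Zf
      refine sum_congr rfl fun ψ _ => prod_congr rfl fun i _ => ?_
      simp only [U]; ring
    rw [h2, ← h]
    congr 1
    rw [sum_filter]
    refine sum_congr rfl fun x _ => ?_
    by_cases hx : vec x ∈ V
    · rw [if_pos hx, if_pos ((hmem x).2 hx)]; rfl
    · rw [if_neg hx, if_neg (fun h => hx ((hmem x).1 h))]
  -- the core inequality
  have hcore : ∀ s M : ℝ, 0 < s → s < 1 / 2 →
      ((s ≤ 1 / 3 ∧ M = 1 - s) ∨ (1 / 3 ≤ s ∧ M = 2 * s)) →
      (m : ℝ) * Zf U s ≤ M * Df U s := by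
    intro s M hs0 hs1 hM
    let Q : AddChar G ℂ → Fin k → ℝ := fun ψ i => 1 - s * U ψ i
    have hQpos : ∀ ψ i, 0 < Q ψ i := fun ψ i => by
      have := hU2 ψ i
      simp only [Q]; nlinarith
    have hQ : ∀ (ψ : AddChar G ℂ) i, 1 - s + s * (ψ (c i)).re = Q ψ i := fun ψ i => by
      simp only [Q, U]; ring
    have hPpos : ∀ ψ, 0 ≤ ∏ i, Q ψ i := fun ψ => prod_nonneg fun i _ => (hQpos ψ i).le
    have him : ∀ (ψ : AddChar G ℂ) i, (ψ (c i)).im ^ 2 = U ψ i * (2 - U ψ i) := by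
      intro ψ i
      have h1 := norm_addChar' ψ (c i)
      have h2 : (ψ (c i)).re ^ 2 + (ψ (c i)).im ^ 2 = 1 := by
        have h3 := Complex.normSq_eq_norm_sq (ψ (c i))
        rw [h1, Complex.normSq_apply] at h3
        nlinarith
      simp only [U]; nlinarith
    -- second moment for each w j
    have hsm : ∀ j, ∑ ψ : AddChar G ℂ, (∏ i, Q ψ i) *
        ((∑ l, w j l ^ 2 * (s * (1 - U ψ l) / Q ψ l + s ^ 2 * ((ψ (c l)).im / Q ψ l) ^ 2)) -
          s ^ 2 * (∑ l, w j l * ((ψ (c l)).im / Q ψ l)) ^ 2) = 0 := by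
      intro j
      have h := second_moment c s hs0 hs1 (w j) (fun x hx => by
        have := hw2 j (vec x) ((hmem x).1 hx)
        simpa [vec] using this)
      simp only [hQ] at h
      have hUre : ∀ (ψ : AddChar G ℂ) i, (ψ (c i)).re = 1 - U ψ i := fun ψ i => by
        simp only [U]; ring
      simp only [hUre] at h
      exact h
    have hp1 : ∀ l, ∑ j, w j l ^ 2 ≤ 1 := by
      intro l
      have h := hw3 (fun i => if i = l then 1 else 0)
      simpa using h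
    have hp0 : ∀ l, 0 ≤ ∑ j, w j l ^ 2 := fun l => sum_nonneg fun j _ => sq_nonneg _
    have hpm : ∑ l, ∑ j, w j l ^ 2 = m := by
      rw [sum_comm]
      simp only [hw1]
      simp
    -- sum over j
    have hsum : ∑ ψ : AddChar G ℂ, (∏ i, Q ψ i) *
        ((∑ l, (∑ j, w j l ^ 2) *
            ((1 - U ψ l) / Q ψ l + s * (U ψ l * (2 - U ψ l)) / Q ψ l ^ 2)) -
          s * ∑ j, (∑ l, w j l * ((ψ (c l)).im / Q ψ l)) ^ 2) = 0 := by
      have h1 : ∑ j, ∑ ψ : AddChar G ℂ, (∏ i, Q ψ i) *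
        ((∑ l, w j l ^ 2 * (s * (1 - U ψ l) / Q ψ l + s ^ 2 * ((ψ (c l)).im / Q ψ l) ^ 2)) -
          s ^ 2 * (∑ l, w j l * ((ψ (c l)).im / Q ψ l)) ^ 2) = 0 := by
        simp only [hsm]; simp
      have h2 : s * ∑ ψ : AddChar G ℂ, (∏ i, Q ψ i) *
        ((∑ l, (∑ j, w j l ^ 2) *
            ((1 - U ψ l) / Q ψ l + s * (U ψ l * (2 - U ψ l)) / Q ψ l ^ 2)) -
          s * ∑ j, (∑ l, w j l * ((ψ (c l)).im / Q ψ l)) ^ 2) =
          ∑ j, ∑ ψ : AddChar G ℂ, (∏ i, Q ψ i) *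
        ((∑ l, w j l ^ 2 * (s * (1 - U ψ l) / Q ψ l + s ^ 2 * ((ψ (c l)).im / Q ψ l) ^ 2)) -
          s ^ 2 * (∑ l, w j l * ((ψ (c l)).im / Q ψ l)) ^ 2) := by
        rw [mul_sum, sum_comm]
        refine sum_congr rfl fun ψ _ => ?_
        rw [← mul_sum, sum_sub_distrib, ← mul_sum, sum_comm]
        have h3 : ∑ l, ∑ j, w j l ^ 2 *
            (s * (1 - U ψ l) / Q ψ l + s ^ 2 * ((ψ (c l)).im / Q ψ l) ^ 2) =
            s * ∑ l, (∑ j, w j l ^ 2) *
            ((1 - U ψ l) / Q ψ l + s * (U ψ l * (2 - U ψ l)) / Q ψ l ^ 2) := by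
          rw [mul_sum]
          refine sum_congr rfl fun l _ => ?_
          rw [← sum_mul, div_pow, him]
          ring
        rw [h3]
        ring
      rw [h1] at h2
      rcases mul_eq_zero.1 h2 with h3 | h3
      · exact absurd h3 hs0.ne'
      · exact h3
    -- Bessel and pointwise
    have hpt : ∀ ψ : AddChar G ℂ, (m : ℝ) ≤ ((∑ l, (∑ j, w j l ^ 2) *
            ((1 - U ψ l) / Q ψ l + s * (U ψ l * (2 - U ψ l)) / Q ψ l ^ 2)) -
          s * ∑ j, (∑ l, w j l * ((ψ (c l)).im / Q ψ l)) ^ 2) +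
          M * ∑ l, U ψ l / Q ψ l := by
      intro ψ
      have hB := hw3 (fun l => (ψ (c l)).im / Q ψ l)
      have hB2 : ∑ l, ((ψ (c l)).im / Q ψ l) ^ 2 = ∑ l, (U ψ l * (2 - U ψ l)) / Q ψ l ^ 2 := by
        refine sum_congr rfl fun l _ => ?_
        rw [div_pow, him]
      rw [hB2] at hB
      have hB3 := mul_le_mul_of_nonneg_left hB hs0.le
      have hpw : ∑ l, ((∑ j, w j l ^ 2) * (1 - ((1 - U ψ l) / Q ψ l +
          s * (U ψ l * (2 - U ψ l)) / Q ψ l ^ 2)) + s * (U ψ l * (2 - U ψ l)) / Q ψ l ^ 2) ≤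
          ∑ l, M * (U ψ l / Q ψ l) :=
        sum_le_sum fun l _ => pointwise (hp0 l) (hp1 l) hs0 hs1 (hU0 ψ l) (hU2 ψ l) hM
      rw [sum_add_distrib, ← mul_sum] at hpw
      have h4 : ∑ l, (∑ j, w j l ^ 2) * (1 - ((1 - U ψ l) / Q ψ l +
          s * (U ψ l * (2 - U ψ l)) / Q ψ l ^ 2)) = (m : ℝ) - ∑ l, (∑ j, w j l ^ 2) *
            ((1 - U ψ l) / Q ψ l + s * (U ψ l * (2 - U ψ l)) / Q ψ l ^ 2) := by
        rw [← hpm, ← sum_sub_distrib]
        exact sum_congr rfl fun l _ => by ring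
      have h5 : ∑ l, s * (U ψ l * (2 - U ψ l)) / Q ψ l ^ 2 =
          s * ∑ l, (U ψ l * (2 - U ψ l)) / Q ψ l ^ 2 := by
        rw [mul_sum]
        exact sum_congr rfl fun l _ => by ring
      rw [h4, h5] at hpw
      linarith
    have hD : Df U s = ∑ ψ : AddChar G ℂ, (∏ i, Q ψ i) * ∑ l, U ψ l / Q ψ l := by
      unfold Df
      refine sum_congr rfl fun ψ _ => ?_
      rw [mul_sum]
      refine sum_congr rfl fun l _ => ?_
      have h6 : ∏ i, Q ψ i = (∏ j ∈ univ.erase l, Q ψ j) * Q ψ l := by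
        rw [Finset.prod_erase_mul _ _ (mem_univ l)]
      have h7 := (hQpos ψ l).ne'
      rw [h6]
      show (∏ j ∈ univ.erase l, Q ψ j) * U ψ l = _
      field_simp
    have hZ : Zf U s = ∑ ψ : AddChar G ℂ, ∏ i, Q ψ i := rfl
    calc (m : ℝ) * Zf U s = ∑ ψ : AddChar G ℂ, (∏ i, Q ψ i) * m := by
          rw [hZ, mul_sum]
          exact sum_congr rfl fun ψ _ => mul_comm _ _
      _ ≤ ∑ ψ : AddChar G ℂ, (∏ i, Q ψ i) * (((∑ l, (∑ j, w j l ^ 2) *
            ((1 - U ψ l) / Q ψ l + s * (U ψ l * (2 - U ψ l)) / Q ψ l ^ 2)) -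
          s * ∑ j, (∑ l, w j l * ((ψ (c l)).im / Q ψ l)) ^ 2) +
          M * ∑ l, U ψ l / Q ψ l) :=
          sum_le_sum fun ψ _ => mul_le_mul_of_nonneg_left (hpt ψ) (hPpos ψ)
      _ = M * Df U s := by
          rw [Finset.sum_congr rfl fun ψ _ => mul_add _ _ _, sum_add_distrib, hsum, zero_add, hD,
            mul_sum]
          exact sum_congr rfl fun ψ _ => by ring
  have hcalc := growth_calc (m := m) U hU0 hU2
    (fun s h0 h1 => hcore s (1 - s) h0 (by linarith) (Or.inl ⟨h1, rfl⟩))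
    (fun s h0 h1 => hcore s (2 * s) (by linarith) h1 (Or.inr ⟨h0, rfl⟩))
  rw [← e1, ← e2] at hcalc
  have hF0 : 0 ≤ ∑ x : Fin k → Fin 3 with vec x ∈ V, Swap304.v x := sum_nonneg fun x _ => v_nonneg x
  have h8 : (∑ x : Fin k → Fin 3 with vec x ∈ V, Swap304.u x) ≤
      (3 / 4 : ℝ) ^ m * ∑ x : Fin k → Fin 3 with vec x ∈ V, Swap304.v x := by
    have : (Fintype.card G : ℝ) * (∑ x : Fin k → Fin 3 with vec x ∈ V, Swap304.u x) ≤
        (Fintype.card G : ℝ) * ((3 / 4 : ℝ) ^ m *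
          ∑ x : Fin k → Fin 3 with vec x ∈ V, Swap304.v x) := by
      calc _ ≤ _ := hcalc
        _ = _ := by ring
    exact le_of_mul_le_mul_left this hg0
  refine h8.trans (mul_le_mul_of_nonneg_right ?_ hF0)
  exact pow_le_pow_of_le_one (by norm_num) (by norm_num) hm

end Vale.Agent.P160.RD.Growth304
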