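import Mathlib

/-! # P160/RD: the abstract exchange (swap) theorem for rational rank deficiency. -/

open Finset Module Submodule

namespace Vale.Agent.P160.RD

noncomputable section

open scoped Classical

variable {Om : Type*} [Fintype Om] {k : ℕ}

/-- product weight -/
def wt {ι : Type*} [Fintype ι] (u : Om → ℝ) (X : ι → Om) : ℝ := ∏ i, u (X i)

/-- measure of a subspace -/
def ms (u : Om → ℝ) (vec : Om → (Fin k → ℚ)) (V : Submodule ℚ (Fin k → ℚ)) : ℝ :=
  ∑ x, if vec x ∈ V then u x else 0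

/-- `Y` independent inside `V` -/
def Bv (v : Om → ℝ) (vec : Om → (Fin k → ℚ)) (V : Submodule ℚ (Fin k → ℚ)) (m : ℕ) : ℝ :=
  ∑ Y : Fin m → Om, if (∀ j, vec (Y j) ∈ V) ∧ LinearIndependent ℚ (fun j => vec (Y j))
    then wt v Y else 0

/-- the rows span `V` -/
def Av (u : Om → ℝ) (vec : Om → (Fin k → ℚ)) (V : Submodule ℚ (Fin k → ℚ)) : ℝ :=
  ∑ X : Fin k → Om, if span ℚ (Set.range fun i => vec (X i)) = V then wt u X else 0

/-- `Y` and `Z` (indexed by `J`) span `V` -/
def Ev (u v : Om → ℝ) (vec : Om → (Fin k → ℚ)) (m : ℕ) (J : Finset (Fin k))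
    (V : Submodule ℚ (Fin k → ℚ)) : ℝ :=
  ∑ Y : Fin m → Om, ∑ Z : {i // i ∈ J} → Om,
    if span ℚ (Set.range (fun j => vec (Y j)) ∪ Set.range (fun i => vec (Z i))) = V
      then wt v Y * wt u Z else 0

omit [Fintype Om] in
lemma wt_nonneg {ι : Type*} [Fintype ι] {u : Om → ℝ} (hu : ∀ x, 0 ≤ u x) (X : ι → Om) :
    0 ≤ wt u X := Finset.prod_nonneg fun _ _ => hu _

lemma sum_prod_pi {ι : Type*} [Fintype ι] [DecidableEq ι] (a : Om → ℝ) :
    ∑ X : ι → Om, ∏ i, a (X i) = (∑ x, a x) ^ (Fintype.card ι) := by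
  have h := Finset.prod_univ_sum (fun _ : ι => (univ : Finset Om)) (fun _ x => a x)
  rw [Fintype.piFinset_univ] at h
  rw [← h]; simp

lemma ms_nonneg {u : Om → ℝ} (hu : ∀ x, 0 ≤ u x) (vec : Om → (Fin k → ℚ))
    (V : Submodule ℚ (Fin k → ℚ)) : 0 ≤ ms u vec V :=
  Finset.sum_nonneg fun x _ => by split_ifs; exacts [hu x, le_rfl]

lemma Bv_zero (v : Om → ℝ) (vec : Om → (Fin k → ℚ)) (V : Submodule ℚ (Fin k → ℚ)) :
    Bv v vec V 0 = 1 := by
  simp [Bv, wt]

lemma Bv_succ {v : Om → ℝ} (hv : ∀ x, 0 ≤ v x) {vec : Om → (Fin k → ℚ)}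
    (hO : ∀ U : Submodule ℚ (Fin k → ℚ), ms v vec U ≤ (3 / 4 : ℝ) ^ (k - finrank ℚ U))
    (V : Submodule ℚ (Fin k → ℚ)) (j : ℕ) :
    Bv v vec V j * (ms v vec V - (3 / 4 : ℝ) ^ (k - j)) ≤ Bv v vec V (j + 1) := by
  have e : Bv v vec V (j + 1) = ∑ Y : Fin j → Om,
      (if (∀ i, vec (Y i) ∈ V) ∧ LinearIndependent ℚ (fun i => vec (Y i)) then wt v Y else 0) *
      ∑ y : Om, (if vec y ∈ V ∧ vec y ∉ span ℚ (Set.range fun i => vec (Y i))
        then v y else 0) := by
    unfold Bv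
    rw [← (Fin.consEquiv (fun _ : Fin (j + 1) => Om)).sum_comp, Fintype.sum_prod_type_right]
    refine Finset.sum_congr rfl fun Y _ => ?_
    rw [Finset.mul_sum]
    refine Finset.sum_congr rfl fun y _ => ?_
    have h1 : (fun i : Fin (j + 1) => vec ((Fin.consEquiv fun _ => Om) (y, Y) i)) =
        Fin.cons (vec y) (fun i => vec (Y i)) := by
      funext i
      refine Fin.cases ?_ (fun i => ?_) i <;> simp [Fin.consEquiv]
    have h2 : (∀ i : Fin (j + 1), vec ((Fin.consEquiv fun _ => Om) (y, Y) i) ∈ V) ↔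
        (vec y ∈ V ∧ ∀ i, vec (Y i) ∈ V) := by
      rw [Fin.forall_fin_succ]; simp [Fin.consEquiv]
    have h3 : wt v ((Fin.consEquiv fun _ : Fin (j + 1) => Om) (y, Y)) = v y * wt v Y := by
      simp [wt, Fin.prod_univ_succ, Fin.consEquiv]
    simp only [h1, h2, linearIndependent_finCons, h3]
    by_cases c1 : vec y ∈ V <;> by_cases c2 : ∀ i, vec (Y i) ∈ V <;>
      by_cases c3 : LinearIndependent ℚ (fun i => vec (Y i)) <;>
      by_cases c4 : vec y ∈ span ℚ (Set.range fun i => vec (Y i)) <;>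
      simp [c1, c2, c3, c4, mul_comm]
  rw [e]
  conv_lhs => unfold Bv
  rw [Finset.sum_mul]
  refine Finset.sum_le_sum fun Y _ => ?_
  by_cases hY : (∀ i, vec (Y i) ∈ V) ∧ LinearIndependent ℚ (fun i => vec (Y i))
  · rw [if_pos hY]
    refine mul_le_mul_of_nonneg_left ?_ (wt_nonneg hv Y)
    have hfr : finrank ℚ (span ℚ (Set.range fun i => vec (Y i))) = j := by
      rw [finrank_span_eq_card hY.2]; simp
    have h4 := hO (span ℚ (Set.range fun i => vec (Y i)))
    rw [hfr] at h4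
    have h5 : ms v vec V - ms v vec (span ℚ (Set.range fun i => vec (Y i))) ≤
        ∑ y : Om, (if vec y ∈ V ∧ vec y ∉ span ℚ (Set.range fun i => vec (Y i))
          then v y else 0) := by
      unfold ms
      rw [← Finset.sum_sub_distrib]
      refine Finset.sum_le_sum fun y _ => ?_
      have := hv y
      by_cases c1 : vec y ∈ V <;>
        by_cases c4 : vec y ∈ span ℚ (Set.range fun i => vec (Y i)) <;> simp [c1, c4, this]
    linarith
  · rw [if_neg hY]; simp

lemma Bv_lower {v : Om → ℝ} (hv : ∀ x, 0 ≤ v x) {vec : Om → (Fin k → ℚ)}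
    (hO : ∀ U : Submodule ℚ (Fin k → ℚ), ms v vec U ≤ (3 / 4 : ℝ) ^ (k - finrank ℚ U))
    (V : Submodule ℚ (Fin k → ℚ)) {m : ℕ} (hm : (3 / 4 : ℝ) ^ (k - m) ≤ ms v vec V / 2) :
    ∀ j ≤ m, (ms v vec V / 2) ^ j ≤ Bv v vec V j := by
  intro j
  induction j with
  | zero => intro _; simp [Bv_zero]
  | succ j ih =>
    intro hj
    have h0 : 0 ≤ ms v vec V / 2 := div_nonneg (ms_nonneg hv _ _) (by norm_num)
    have h1 : (3 / 4 : ℝ) ^ (k - j) ≤ (3 / 4 : ℝ) ^ (k - m) :=
      pow_le_pow_of_le_one (by norm_num) (by norm_num) (by omega)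
    have h2 : ms v vec V / 2 ≤ ms v vec V - (3 / 4 : ℝ) ^ (k - j) := by linarith
    calc (ms v vec V / 2) ^ (j + 1) = (ms v vec V / 2) ^ j * (ms v vec V / 2) := pow_succ _ _
      _ ≤ Bv v vec V j * (ms v vec V - (3 / 4 : ℝ) ^ (k - j)) := by
          refine mul_le_mul (ih (by omega)) h2 h0 ((pow_nonneg h0 j).trans (ih (by omega)))
      _ ≤ _ := Bv_succ hv hO V j

lemma exists_J {m : ℕ} {V : Submodule ℚ (Fin k → ℚ)} (y : Fin m → (Fin k → ℚ))
    (hy : LinearIndependent ℚ y) (hyV : ∀ j, y j ∈ V) (x : Fin k → (Fin k → ℚ))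
    (hx : span ℚ (Set.range x) = V) :
    ∃ J : Finset (Fin k), m + J.card = finrank ℚ V ∧
      span ℚ (Set.range y ∪ Set.range (fun i : {i // i ∈ J} => x i)) = V := by
  let w : Fin m ⊕ Fin k → (Fin k → ℚ) := Sum.elim y x
  have hs : LinearIndepOn ℚ w (Set.range Sum.inl) := by
    rw [linearIndepOn_range_iff Sum.inl_injective]
    exact hy
  obtain ⟨b, -, hsb, hspan, hb⟩ := exists_linearIndepOn_extension hs (Set.subset_univ _)
  have hrw : Set.range w = Set.range y ∪ Set.range x := by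
    ext z; simp [w]
  have hwV : span ℚ (Set.range w) = V := by
    rw [hrw, span_union, hx]
    refine sup_eq_right.2 (span_le.2 ?_)
    rintro _ ⟨j, rfl⟩; exact hyV j
  have hbV : span ℚ (w '' b) = V := by
    refine le_antisymm ?_ ?_
    · rw [← hwV]; exact span_mono (Set.image_subset_range _ _)
    · rw [← hwV, ← Set.image_univ]
      exact span_le.2 hspan
  refine ⟨univ.filter (fun i => Sum.inr i ∈ b), ?_, ?_⟩
  · have h1 := finrank_span_eq_card (R := ℚ) (b := fun i : b => w i) hb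
    have h2 : Set.range (fun i : b => w i) = w '' b := by
      ext z; simp
    rw [h2, hbV] at h1
    rw [h1, ← Set.toFinset_card]
    have h3 : b.toFinset = Finset.disjSum (univ : Finset (Fin m))
        (univ.filter (fun i : Fin k => Sum.inr i ∈ b)) := by
      ext z
      rcases z with z | z
      · simp only [Set.mem_toFinset, Finset.inl_mem_disjSum, Finset.mem_univ, iff_true]
        exact hsb ⟨z, rfl⟩
      · simp
    rw [h3, Finset.card_disjSum]; simp
  · rw [← hbV]
    congr 1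
    ext z
    simp only [Set.mem_union, Set.mem_range, Subtype.exists, Finset.mem_filter, Finset.mem_univ,
      true_and, Set.mem_image, Sum.exists, w, Sum.elim_inl, Sum.elim_inr]
    constructor
    · rintro (⟨j, rfl⟩ | ⟨i, hi, rfl⟩)
      · exact Or.inl ⟨j, hsb ⟨j, rfl⟩, rfl⟩
      · exact Or.inr ⟨i, hi, rfl⟩
    · rintro (⟨j, _, rfl⟩ | ⟨i, hi, rfl⟩)
      · exact Or.inl ⟨j, rfl⟩
      · exact Or.inr ⟨i, hi, rfl⟩

/-- the exchange inequality for one subspace -/
lemma Av_mul_Bv {u v : Om → ℝ} (hu : ∀ x, 0 ≤ u x) (hv : ∀ x, 0 ≤ v x)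
    (vec : Om → (Fin k → ℚ)) (V : Submodule ℚ (Fin k → ℚ)) (m : ℕ) :
    Av u vec V * Bv v vec V m ≤
      ∑ J : Finset (Fin k), if m + J.card = finrank ℚ V then
        Ev u v vec m J V * (ms u vec V) ^ (k - J.card) else 0 := by
  have key : ∀ J : Finset (Fin k),
      Ev u v vec m J V * (ms u vec V) ^ (k - J.card) =
      ∑ Y : Fin m → Om, ∑ X : Fin k → Om,
        if span ℚ (Set.range (fun j => vec (Y j)) ∪
          Set.range (fun i : {i // i ∈ J} => vec (X i))) = V ∧ (∀ i ∉ J, vec (X i) ∈ V)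
        then wt v Y * wt u X else 0 := by
    intro J
    unfold Ev
    rw [Finset.sum_mul]
    refine Finset.sum_congr rfl fun Y _ => ?_
    rw [← (Equiv.piEquivPiSubtypeProd (fun i => i ∈ J) (fun _ => Om)).symm.sum_comp,
      Fintype.sum_prod_type, Finset.sum_mul]
    refine Finset.sum_congr rfl fun Z _ => ?_
    have hpow : (ms u vec V) ^ (k - J.card) =
        ∑ Z' : {i // ¬ i ∈ J} → Om, ∏ i, (if vec (Z' i) ∈ V then u (Z' i) else 0) := by
      rw [sum_prod_pi (fun x => if vec x ∈ V then u x else 0)]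
      congr 1
      rw [Fintype.card_subtype_compl]
      simp
    rw [hpow, Finset.mul_sum]
    refine Finset.sum_congr rfl fun Z' _ => ?_
    set X : Fin k → Om := (Equiv.piEquivPiSubtypeProd (fun i => i ∈ J) (fun _ => Om)).symm (Z, Z')
      with hX
    have hX1 : ∀ i : {i // i ∈ J}, X i = Z i := by
      intro i; simp [hX, Equiv.piEquivPiSubtypeProd, i.2]
    have hX2 : ∀ i : {i // ¬ i ∈ J}, X i = Z' i := by
      intro i; simp [hX, Equiv.piEquivPiSubtypeProd, i.2]
    have hw : wt u X = wt u Z * wt u Z' := by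
      unfold wt
      rw [← Fintype.prod_subtype_mul_prod_subtype (fun i => i ∈ J) (fun i => u (X i))]
      congr 1
      · exact Finset.prod_congr (Finset.ext fun _ => by simp) fun i _ => by rw [hX1]
      · exact Finset.prod_congr (Finset.ext fun _ => by simp) fun i _ => by rw [hX2]
    have hr : (fun i : {i // i ∈ J} => vec (X i)) = fun i => vec (Z i) := by
      funext i; rw [hX1]
    have hq : (∀ i ∉ J, vec (X i) ∈ V) ↔ ∀ i : {i // ¬ i ∈ J}, vec (Z' i) ∈ V := by
      constructor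
      · intro h i; rw [← hX2]; exact h i i.2
      · intro h i hi; have := h ⟨i, hi⟩; rw [← hX2] at this; exact this
    rw [hw]
    simp only [hr, hq]
    by_cases c1 : span ℚ (Set.range (fun j => vec (Y j)) ∪ Set.range (fun i => vec (Z i))) = V
    · by_cases c2 : ∀ i : {i // ¬ i ∈ J}, vec (Z' i) ∈ V
      · have : ∏ i, (if vec (Z' i) ∈ V then u (Z' i) else 0) = wt u Z' :=
          Finset.prod_congr rfl fun i _ => if_pos (c2 i)
        rw [this, if_pos c1, if_pos ⟨c1, c2⟩]; ring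
      · have : ∏ i, (if vec (Z' i) ∈ V then u (Z' i) else 0) = 0 := by
          push Not at c2
          obtain ⟨i, hi⟩ := c2
          exact Finset.prod_eq_zero (Finset.mem_univ i) (if_neg hi)
        rw [this, mul_zero, if_neg (fun h => c2 h.2)]
    · rw [if_neg c1, if_neg (fun h => c1 h.1)]; simp
  have h1 : (∑ J : Finset (Fin k), if m + J.card = finrank ℚ V then
        Ev u v vec m J V * (ms u vec V) ^ (k - J.card) else 0) =
      ∑ Y : Fin m → Om, ∑ X : Fin k → Om, ∑ J : Finset (Fin k),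
        if m + J.card = finrank ℚ V ∧ span ℚ (Set.range (fun j => vec (Y j)) ∪
          Set.range (fun i : {i // i ∈ J} => vec (X i))) = V ∧ (∀ i ∉ J, vec (X i) ∈ V)
        then wt v Y * wt u X else 0 := by
    have : ∀ Y : Fin m → Om, (∑ X : Fin k → Om, ∑ J : Finset (Fin k),
        if m + J.card = finrank ℚ V ∧ span ℚ (Set.range (fun j => vec (Y j)) ∪
          Set.range (fun i : {i // i ∈ J} => vec (X i))) = V ∧ (∀ i ∉ J, vec (X i) ∈ V)
        then wt v Y * wt u X else 0) = ∑ J : Finset (Fin k), ∑ X : Fin k → Om,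
        if m + J.card = finrank ℚ V ∧ span ℚ (Set.range (fun j => vec (Y j)) ∪
          Set.range (fun i : {i // i ∈ J} => vec (X i))) = V ∧ (∀ i ∉ J, vec (X i) ∈ V)
        then wt v Y * wt u X else 0 := fun Y => Finset.sum_comm
    rw [Finset.sum_congr rfl fun Y _ => this Y, Finset.sum_comm]
    refine Finset.sum_congr rfl fun J _ => ?_
    by_cases c : m + J.card = finrank ℚ V
    · rw [if_pos c, key J]; simp [c]
    · simp [c]
  rw [h1]
  unfold Av Bv
  rw [mul_comm, Finset.sum_mul]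
  refine Finset.sum_le_sum fun Y _ => ?_
  rw [Finset.mul_sum]
  refine Finset.sum_le_sum fun X _ => ?_
  have hnn : 0 ≤ wt v Y * wt u X := mul_nonneg (wt_nonneg hv Y) (wt_nonneg hu X)
  by_cases c1 : (∀ j, vec (Y j) ∈ V) ∧ LinearIndependent ℚ (fun j => vec (Y j))
  · by_cases c2 : span ℚ (Set.range fun i => vec (X i)) = V
    · rw [if_pos c1, if_pos c2]
      obtain ⟨J, hJ1, hJ2⟩ := exists_J (fun j => vec (Y j)) c1.2 c1.1 (fun i => vec (X i)) c2
      have hmem : m + J.card = finrank ℚ V ∧ span ℚ (Set.range (fun j => vec (Y j)) ∪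
          Set.range (fun i : {i // i ∈ J} => vec (X i))) = V ∧ (∀ i ∉ J, vec (X i) ∈ V) :=
        ⟨hJ1, hJ2, fun i _ => by rw [← c2]; exact subset_span ⟨i, rfl⟩⟩
      refine le_trans (le_of_eq (if_pos hmem).symm) (Finset.single_le_sum
        (f := fun J : Finset (Fin k) =>
        if m + J.card = finrank ℚ V ∧ span ℚ (Set.range (fun j => vec (Y j)) ∪
          Set.range (fun i : {i // i ∈ J} => vec (X i))) = V ∧ (∀ i ∉ J, vec (X i) ∈ V)
        then wt v Y * wt u X else 0) (fun J _ => ?_) (Finset.mem_univ J))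
      show 0 ≤ ite _ _ _
      split_ifs <;> [exact hnn; exact le_rfl]
    · rw [if_neg c2, mul_zero]
      exact Finset.sum_nonneg fun J _ => by split_ifs <;> [exact hnn; exact le_rfl]
  · rw [if_neg c1, zero_mul]
    exact Finset.sum_nonneg fun J _ => by split_ifs <;> [exact hnn; exact le_rfl]

/-- for fixed `J` the exchange events are disjoint in `V` -/
lemma sum_Ev_le {u v : Om → ℝ} (hu : ∀ x, 0 ≤ u x) (hv : ∀ x, 0 ≤ v x)
    (su : ∑ x, u x = 1) (sv : ∑ x, v x = 1)
    (vec : Om → (Fin k → ℚ)) (m : ℕ) (J : Finset (Fin k))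
    (S : Finset (Submodule ℚ (Fin k → ℚ))) :
    ∑ V ∈ S, Ev u v vec m J V ≤ 1 := by
  unfold Ev
  rw [Finset.sum_comm]
  have h1 : ∑ Y : Fin m → Om, wt v Y = 1 := by
    unfold wt; rw [sum_prod_pi, sv, one_pow]
  have h2 : ∑ Z : {i // i ∈ J} → Om, wt u Z = 1 := by
    unfold wt; rw [sum_prod_pi, su, one_pow]
  calc _ ≤ ∑ Y : Fin m → Om, wt v Y := ?_
    _ = 1 := h1
  refine Finset.sum_le_sum fun Y _ => ?_
  rw [Finset.sum_comm]
  calc _ ≤ ∑ Z : {i // i ∈ J} → Om, wt v Y * wt u Z := ?_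
    _ = wt v Y := by rw [← Finset.mul_sum, h2, mul_one]
  refine Finset.sum_le_sum fun Z _ => ?_
  rw [Finset.sum_ite_eq]
  have hnn : 0 ≤ wt v Y * wt u Z := mul_nonneg (wt_nonneg hv Y) (wt_nonneg hu Z)
  split_ifs
  · exact le_rfl
  · exact hnn

/-- bound for one subspace with `m` swapped rows -/
lemma Av_le {u v : Om → ℝ} (hu : ∀ x, 0 ≤ u x) (hv : ∀ x, 0 ≤ v x)
    {vec : Om → (Fin k → ℚ)} {t : ℝ} (ht0 : 3 / 4 ≤ t) (ht1 : t ≤ 1)
    (hO : ∀ U : Submodule ℚ (Fin k → ℚ), ms v vec U ≤ (3 / 4 : ℝ) ^ (k - finrank ℚ U))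
    (hS : ∀ U : Submodule ℚ (Fin k → ℚ),
      ms u vec U ≤ t ^ (k - finrank ℚ U) * ms v vec U)
    (V : Submodule ℚ (Fin k → ℚ)) {r m : ℕ} (hrk : r ≤ k) (hV : finrank ℚ V = k - r)
    (hmk : m < k) (hm : m = 0 ∨ (3 / 4 : ℝ) ^ (k - m) ≤ ms v vec V / 2)
    (hm' : ms v vec V / 2 < (3 / 4 : ℝ) ^ (k - (m + 1))) (hmr : m + r ≤ k) :
    Av u vec V ≤ (2 ^ (m + 2 * r) * t ^ (r * k)) * ∑ J : Finset (Fin k), Ev u v vec m J V := by
  set F := ms v vec V with hF
  set f := ms u vec V with hf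
  have hF0 : 0 ≤ F := ms_nonneg hv _ _
  have hf0 : 0 ≤ f := ms_nonneg hu _ _
  have ht : 0 < t := by linarith
  have hfF : f ≤ t ^ r * F := by
    have := hS V
    rw [hV] at this
    have e : k - (k - r) = r := by omega
    rwa [e] at this
  have hE0 : ∀ J, 0 ≤ Ev u v vec m J V := fun J => Finset.sum_nonneg fun Y _ =>
    Finset.sum_nonneg fun Z _ => by
      split_ifs
      · exact mul_nonneg (wt_nonneg hv Y) (wt_nonneg hu Z)
      · exact le_rfl
  have hB : (F / 2) ^ m ≤ Bv v vec V m := by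
    rcases hm with h | h
    · subst h; simp [Bv_zero]
    · exact Bv_lower hv hO V h m le_rfl
  have hBpos : 0 < (F / 2) ^ m := by
    rcases hm with h | h
    · subst h; simp
    · have : 0 < F / 2 := lt_of_lt_of_le (by positivity) h
      positivity
  have hA0 : 0 ≤ Av u vec V := Finset.sum_nonneg fun X _ => by
    split_ifs
    · exact wt_nonneg hu X
    · exact le_rfl
  have h1 := Av_mul_Bv hu hv vec V m
  have h2 : (∑ J : Finset (Fin k), if m + J.card = finrank ℚ V then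
        Ev u v vec m J V * (ms u vec V) ^ (k - J.card) else 0) ≤
      f ^ (r + m) * ∑ J : Finset (Fin k), Ev u v vec m J V := by
    rw [Finset.mul_sum]
    refine Finset.sum_le_sum fun J _ => ?_
    split_ifs with c
    · rw [hV] at c
      have : k - J.card = r + m := by omega
      rw [this, mul_comm]
    · exact mul_nonneg (pow_nonneg hf0 _) (hE0 J)
  set S := ∑ J : Finset (Fin k), Ev u v vec m J V with hSdef
  have hS0 : 0 ≤ S := Finset.sum_nonneg fun J _ => hE0 J
  have h3 : Av u vec V * (F / 2) ^ m ≤ f ^ (r + m) * S :=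
    (mul_le_mul_of_nonneg_left hB hA0).trans (h1.trans h2)
  -- the numbers
  have h4 : f ^ (r + m) ≤ (2 ^ (m + 2 * r) * t ^ (r * k)) * (F / 2) ^ m := by
    have a1 : f ^ m ≤ t ^ (r * m) * F ^ m := by
      calc f ^ m ≤ (t ^ r * F) ^ m := pow_le_pow_left₀ hf0 hfF m
        _ = _ := by rw [mul_pow, ← pow_mul]
    have a2 : f ≤ F := hfF.trans (by
      have := pow_le_one₀ ht.le ht1 (n := r)
      nlinarith)
    have a3 : F ≤ 4 * t ^ (k - m) := by
      have b1 : (3 / 4 : ℝ) ^ (k - (m + 1)) ≤ t ^ (k - (m + 1)) :=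
        pow_le_pow_left₀ (by norm_num) ht0 _
      have b2 : t ^ (k - m) = t ^ (k - (m + 1)) * t := by
        rw [← pow_succ]; congr 1; omega
      have b3 : 0 < t ^ (k - (m + 1)) := by positivity
      rw [b2]
      nlinarith
    have a4 : f ^ r ≤ 4 ^ r * t ^ (r * (k - m)) := by
      calc f ^ r ≤ (4 * t ^ (k - m)) ^ r := pow_le_pow_left₀ hf0 (a2.trans a3) r
        _ = _ := by rw [mul_pow, ← pow_mul, mul_comm (k - m) r]
    calc f ^ (r + m) = f ^ r * f ^ m := pow_add _ _ _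
      _ ≤ (4 ^ r * t ^ (r * (k - m))) * (t ^ (r * m) * F ^ m) :=
          mul_le_mul a4 a1 (pow_nonneg hf0 _) (by positivity)
      _ = (2 ^ (m + 2 * r) * t ^ (r * k)) * (F / 2) ^ m := by
          have c1 : r * k = r * (k - m) + r * m := by
            rw [← mul_add]; congr 1; omega
          rw [c1, pow_add t, pow_add 2, pow_mul 2, div_pow]
          have : (2 : ℝ) ^ 2 = 4 := by norm_num
          rw [this]
          field_simp
  have h5 : Av u vec V * (F / 2) ^ m ≤
      ((2 ^ (m + 2 * r) * t ^ (r * k)) * S) * (F / 2) ^ m := by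
    refine h3.trans ((mul_le_mul_of_nonneg_right h4 hS0).trans (le_of_eq ?_)); ring
  exact le_of_mul_le_mul_right h5 hBpos

/-- **Abstract exchange theorem for rational rank deficiency.** -/
theorem rank_swap {u v : Om → ℝ} (hu : ∀ x, 0 ≤ u x) (hv : ∀ x, 0 ≤ v x)
    (su : ∑ x, u x = 1) (sv : ∑ x, v x = 1)
    {vec : Om → (Fin k → ℚ)} {t : ℝ} (ht0 : 3 / 4 ≤ t) (ht1 : t ≤ 1)
    (hO : ∀ U : Submodule ℚ (Fin k → ℚ), ms v vec U ≤ (3 / 4 : ℝ) ^ (k - finrank ℚ U))
    (hS : ∀ U : Submodule ℚ (Fin k → ℚ),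
      ms u vec U ≤ t ^ (k - finrank ℚ U) * ms v vec U)
    {r : ℕ} (hr : 1 ≤ r) (hrk : r ≤ k) :
    (∑ X : Fin k → Om, if finrank ℚ (span ℚ (Set.range fun i => vec (X i))) = k - r
      then wt u X else 0) ≤ k * (2 : ℝ) ^ (2 * k + 2 * r) * t ^ (r * k) := by
  have ht : 0 < t := by linarith
  set 𝒱 : Finset (Submodule ℚ (Fin k → ℚ)) :=
    ((univ : Finset (Fin k → Om)).image
      (fun X => span ℚ (Set.range fun i => vec (X i)))).filter
      (fun V => finrank ℚ V = k - r) with h𝒱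
  have e1 : (∑ X : Fin k → Om, if finrank ℚ (span ℚ (Set.range fun i => vec (X i))) = k - r
      then wt u X else 0) = ∑ V ∈ 𝒱, Av u vec V := by
    unfold Av
    rw [Finset.sum_comm]
    refine Finset.sum_congr rfl fun X _ => ?_
    rw [Finset.sum_ite_eq]
    by_cases c : finrank ℚ (span ℚ (Set.range fun i => vec (X i))) = k - r
    · rw [if_pos c, if_pos]
      rw [h𝒱, Finset.mem_filter]
      exact ⟨Finset.mem_image_of_mem _ (Finset.mem_univ X), c⟩
    · rw [if_neg c, if_neg]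
      rw [h𝒱, Finset.mem_filter]
      exact fun h => c h.2
  rw [e1]
  let mm : Submodule ℚ (Fin k → ℚ) → ℕ := fun V =>
    Nat.findGreatest (fun m => (3 / 4 : ℝ) ^ (k - m) ≤ ms v vec V / 2) (k - 1)
  have hmm : ∀ V ∈ 𝒱, Av u vec V ≤
      (2 ^ (mm V + 2 * r) * t ^ (r * k)) * ∑ J : Finset (Fin k), Ev u v vec (mm V) J V := by
    intro V hV
    have hfr : finrank ℚ V = k - r := (Finset.mem_filter.1 hV).2
    have hlt : mm V < k := by
      have : mm V ≤ k - 1 := Nat.findGreatest_le _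
      omega
    have hFr : ms v vec V ≤ (3 / 4 : ℝ) ^ r := by
      have := hO V
      rw [hfr] at this
      have e : k - (k - r) = r := by omega
      rwa [e] at this
    have hor : mm V = 0 ∨ (3 / 4 : ℝ) ^ (k - mm V) ≤ ms v vec V / 2 := by
      by_cases h : mm V = 0
      · exact Or.inl h
      · exact Or.inr (Nat.findGreatest_of_ne_zero (P := fun m =>
          (3 / 4 : ℝ) ^ (k - m) ≤ ms v vec V / 2) (n := k - 1) rfl h)
    refine Av_le hu hv ht0 ht1 hO hS V hrk hfr hlt hor ?_ ?_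
    · by_cases h : mm V + 1 ≤ k - 1
      · have := Nat.findGreatest_is_greatest (P := fun m =>
          (3 / 4 : ℝ) ^ (k - m) ≤ ms v vec V / 2) (n := k - 1) (k := mm V + 1)
          (Nat.lt_succ_self _) h
        exact not_le.1 this
      · have e : k - (mm V + 1) = 0 := by omega
        rw [e, pow_zero]
        have : (3 / 4 : ℝ) ^ r ≤ 1 := pow_le_one₀ (by norm_num) (by norm_num)
        linarith
    · rcases hor with h | h
      · rw [h]; omega
      · by_contra hc
        have h1 : (3 / 4 : ℝ) ^ r ≤ (3 / 4 : ℝ) ^ (k - mm V) :=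
          pow_le_pow_of_le_one (by norm_num) (by norm_num) (by omega)
        have h2 : (0 : ℝ) < (3 / 4 : ℝ) ^ r := by positivity
        linarith
  have hE0 : ∀ m J V, 0 ≤ Ev u v vec m J V := fun m J V => Finset.sum_nonneg fun Y _ =>
    Finset.sum_nonneg fun Z _ => by
      split_ifs
      · exact mul_nonneg (wt_nonneg hv Y) (wt_nonneg hu Z)
      · exact le_rfl
  have hrange : ∀ V ∈ 𝒱, mm V ∈ Finset.range k := by
    intro V _
    have : mm V ≤ k - 1 := Nat.findGreatest_le _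
    rw [Finset.mem_range]; omega
  calc ∑ V ∈ 𝒱, Av u vec V
      ≤ ∑ V ∈ 𝒱, ∑ m ∈ Finset.range k, if mm V = m then
          (2 ^ (m + 2 * r) * t ^ (r * k)) * ∑ J : Finset (Fin k), Ev u v vec m J V else 0 := by
        refine Finset.sum_le_sum fun V hV => ?_
        rw [Finset.sum_ite_eq, if_pos (hrange V hV)]
        exact hmm V hV
    _ = ∑ m ∈ Finset.range k, ∑ V ∈ 𝒱, if mm V = m then
          (2 ^ (m + 2 * r) * t ^ (r * k)) * ∑ J : Finset (Fin k), Ev u v vec m J V else 0 :=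
        Finset.sum_comm
    _ ≤ ∑ m ∈ Finset.range k, (2 ^ (k + 2 * r) * t ^ (r * k)) * (2 : ℝ) ^ k := by
        refine Finset.sum_le_sum fun m hm => ?_
        rw [Finset.mem_range] at hm
        have h1 : (∑ V ∈ 𝒱, if mm V = m then
          (2 ^ (m + 2 * r) * t ^ (r * k)) * ∑ J : Finset (Fin k), Ev u v vec m J V else 0) ≤
          (2 ^ (m + 2 * r) * t ^ (r * k)) *
            ∑ J : Finset (Fin k), ∑ V ∈ 𝒱, Ev u v vec m J V := by
          rw [Finset.sum_comm (s := (univ : Finset (Finset (Fin k)))), Finset.mul_sum]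
          refine Finset.sum_le_sum fun V _ => ?_
          split_ifs
          · exact le_rfl
          · exact mul_nonneg (by positivity) (Finset.sum_nonneg fun J _ => hE0 m J V)
        refine h1.trans ?_
        have h2 : (∑ J : Finset (Fin k), ∑ V ∈ 𝒱, Ev u v vec m J V) ≤ (2 : ℝ) ^ k := by
          calc _ ≤ ∑ _J : Finset (Fin k), (1 : ℝ) :=
                Finset.sum_le_sum fun J _ => sum_Ev_le hu hv su sv vec m J 𝒱
            _ = 2 ^ k := by simp
        have h3 : (2 : ℝ) ^ (m + 2 * r) ≤ 2 ^ (k + 2 * r) :=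
          pow_le_pow_right₀ (by norm_num) (by omega)
        have h4 : 0 ≤ ∑ J : Finset (Fin k), ∑ V ∈ 𝒱, Ev u v vec m J V :=
          Finset.sum_nonneg fun J _ => Finset.sum_nonneg fun V _ => hE0 m J V
        exact mul_le_mul (mul_le_mul_of_nonneg_right h3 (by positivity)) h2 h4 (by positivity)
    _ = k * (2 : ℝ) ^ (2 * k + 2 * r) * t ^ (r * k) := by
        rw [Finset.sum_const, Finset.card_range, nsmul_eq_mul]
        have : (2 : ℝ) ^ (2 * k + 2 * r) = 2 ^ (k + 2 * r) * 2 ^ k := by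
          rw [← pow_add]; congr 1; ring
        rw [this]; ring

end

end Vale.Agent.P160.RD
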