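import Vale.Agent.P160.RD.SwapB304
import Vale.Agent.P160.RD.Rank
import Mathlib.Analysis.InnerProductSpace.PiL2
import Mathlib.Analysis.InnerProductSpace.Projection.FiniteDimensional

/-!
# P160, block (M): growth lemma for rational subspaces

For a rational subspace `V` of codimension `r` let `Z μ` be the probability that the vector with
independent entries `0, 1, -1` of probabilities `1 - μ, μ / 2, μ / 2` lies in `V`. Then
`-(log Z)' ≥ r / max (1 - μ) (2 μ)` on `(0, 1/2)` (integration by parts on the annihilator), and so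
`Z (1/2) ≤ (3/4)^r Z (1/4)`.
-/

namespace Vale.Agent.P160.RD.Grow519

open Finset Module Vale.Agent.P160.RD.Swap304

section fourier

variable {G : Type} [AddCommGroup G] [Fintype G] [DecidableEq G]

theorem fourierC {Ω : Type} [Fintype Ω] [DecidableEq Ω] {k : ℕ}
    (w : Fin k → Ω → ℂ) (e : Ω → ℤ) (c : Fin k → G) :
    (Fintype.card G : ℂ) *
        (∑ x : Fin k → Ω, if ∑ i, e (x i) • c i = 0 then ∏ i, w i (x i) else 0) =
      ∑ ψ : AddChar G ℂ, ∏ i, ∑ b, w i b * (ψ (c i)) ^ (e b) := by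
  have h1 : ∀ ψ : AddChar G ℂ, ∏ i, ∑ b, w i b * (ψ (c i)) ^ (e b) =
      ∑ x : Fin k → Ω, (∏ i, w i (x i)) * ψ (∑ i, e (x i) • c i) := by
    intro ψ
    have h2 := Finset.prod_univ_sum (fun _ : Fin k => (univ : Finset Ω))
      (fun i b => w i b * (ψ (c i)) ^ (e b))
    rw [Fintype.piFinset_univ] at h2
    rw [h2]
    refine sum_congr rfl fun x _ => ?_
    rw [prod_mul_distrib, addChar_sum']
    congr 1
    refine prod_congr rfl fun i _ => ?_
    rw [AddChar.map_zsmul_eq_zpow]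
  simp only [h1]
  rw [sum_comm, mul_sum]
  refine sum_congr rfl fun x _ => ?_
  rw [← mul_sum, AddChar.sum_apply_eq_ite]
  by_cases hx : ∑ i, e (x i) • c i = 0
  · rw [if_pos hx, if_pos hx]
    ring
  · rw [if_neg hx, if_neg hx]
    ring

end fourier

/-! ### the projection -/

theorem exists_proj {k : ℕ} (V : Submodule ℚ (Fin k → ℚ)) :
    ∃ P : Fin k → Fin k → ℝ, (∀ l, 0 ≤ P l l) ∧ (∀ l, P l l ≤ 1) ∧
      ((k - finrank ℚ V : ℕ) : ℝ) ≤ ∑ l, P l l ∧
      (∀ y ∈ V, ∀ l, ∑ m, P l m * (y m : ℝ) = 0) ∧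
      ∀ a : Fin k → ℝ, ∑ l, ∑ m, P l m * (a l * a m) ≤ ∑ l, a l ^ 2 := by
  classical
  let E := EuclideanSpace ℝ (Fin k)
  let T : (Fin k → ℚ) → E := fun y => WithLp.toLp 2 (fun i => (y i : ℝ))
  let bV := finBasis ℚ V
  let U : Submodule ℝ E := Submodule.span ℝ (Set.range fun j => T (bV j))
  have hU : finrank ℝ U ≤ finrank ℚ V := by
    have h := finrank_range_le_card (R := ℝ) (fun j => T (bV j))
    rw [Fintype.card_fin] at h
    exact h
  have hTU : ∀ y ∈ V, T y ∈ U := by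
    intro y hy
    have h1 : y = ∑ j, (bV.repr ⟨y, hy⟩ j) • ((bV j : V) : Fin k → ℚ) := by
      have := congrArg (Subtype.val) (bV.sum_repr ⟨y, hy⟩)
      rw [AddSubmonoidClass.coe_finsetSum] at this
      exact this.symm
    have h2 : T y = ∑ j, ((bV.repr ⟨y, hy⟩ j : ℚ) : ℝ) • T (bV j) := by
      ext i
      have h3 := congrFun h1 i
      rw [WithLp.ofLp_sum]
      simp only [T, Finset.sum_apply, Pi.smul_apply, smul_eq_mul] at h3 ⊢
      rw [h3]
      push_cast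
      rfl
    rw [h2]
    exact Submodule.sum_mem _ fun j _ => Submodule.smul_mem _ _ (Submodule.subset_span ⟨j, rfl⟩)
  let W : Submodule ℝ E := Uᗮ
  have hW : k - finrank ℚ V ≤ finrank ℝ W := by
    have h := Submodule.finrank_add_finrank_orthogonal U
    rw [finrank_euclideanSpace, Fintype.card_fin] at h
    have : finrank ℝ W = finrank ℝ (Uᗮ : Submodule ℝ E) := rfl
    omega
  let o := stdOrthonormalBasis ℝ W
  let u : Fin (finrank ℝ W) → E := fun α => (o α : E)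
  have hu : Orthonormal ℝ u := by
    have h := o.orthonormal
    rw [orthonormal_iff_ite] at h ⊢
    intro i j
    have := h i j
    rw [Submodule.coe_inner] at this
    exact this
  have hin : ∀ (α) (a : Fin k → ℝ), inner ℝ (u α) (WithLp.toLp 2 a : E) = ∑ l, u α l * a l := by
    intro α a
    rw [PiLp.inner_apply]
    refine sum_congr rfl fun l _ => ?_
    simp [mul_comm]
  have hquad : ∀ a : Fin k → ℝ, ∑ l, ∑ m, (∑ α, u α l * u α m) * (a l * a m) ≤ ∑ l, a l ^ 2 := by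
    intro a
    have h1 : ∑ l, ∑ m, (∑ α, u α l * u α m) * (a l * a m) =
        ∑ α, (∑ l, u α l * a l) ^ 2 := by
      have : ∀ α, (∑ l, u α l * a l) ^ 2 = ∑ l, ∑ m, u α l * u α m * (a l * a m) := by
        intro α
        rw [sq, sum_mul_sum]
        refine sum_congr rfl fun l _ => sum_congr rfl fun m _ => ?_
        ring
      simp only [this, sum_mul]
      rw [sum_comm' (s := univ) (t := fun _ => univ) (t' := univ) (s' := fun _ => univ)
        (by simp)]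
      rw [sum_comm]
      symm
      rw [sum_comm]
      refine sum_congr rfl fun l _ => ?_
      rw [sum_comm]
    rw [h1]
    have h2 := hu.sum_inner_products_le (x := (WithLp.toLp 2 a : E)) (s := univ)
    have h3 : ‖(WithLp.toLp 2 a : E)‖ ^ 2 = ∑ l, a l ^ 2 := by
      rw [EuclideanSpace.norm_sq_eq]
      refine sum_congr rfl fun l _ => ?_
      simp
    rw [h3] at h2
    refine le_trans (le_of_eq ?_) h2
    refine sum_congr rfl fun α _ => ?_
    rw [hin, Real.norm_eq_abs, sq_abs]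
  refine ⟨fun l m => ∑ α, u α l * u α m, ?_, ?_, ?_, ?_, hquad⟩
  · intro l
    exact sum_nonneg fun α _ => mul_self_nonneg _
  · intro l
    have h := hquad (Pi.single l 1)
    have h1 : ∑ l', ∑ m, (∑ α, u α l' * u α m) * ((Pi.single l (1 : ℝ) : Fin k → ℝ) l' *
        (Pi.single l (1 : ℝ) : Fin k → ℝ) m) = ∑ α, u α l * u α l := by
      rw [sum_eq_single l]
      · rw [sum_eq_single l]
        · simp
        · intro b _ hb
          simp [hb]
        · simp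
      · intro b _ hb
        simp [hb]
      · simp
    have h2 : ∑ l', (Pi.single l (1 : ℝ) : Fin k → ℝ) l' ^ 2 = 1 := by
      rw [sum_eq_single l]
      · simp
      · intro b _ hb
        simp [hb]
      · simp
    rw [h1, h2] at h
    exact h
  · have h1 : ∑ l, ∑ α, u α l * u α l = (finrank ℝ W : ℝ) := by
      rw [sum_comm]
      have : ∀ α, ∑ l, u α l * u α l = 1 := by
        intro α
        have h := hu.1 α
        have h2 : ‖u α‖ ^ 2 = ∑ l, u α l * u α l := by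
          rw [EuclideanSpace.norm_sq_eq]
          refine sum_congr rfl fun l _ => ?_
          rw [Real.norm_eq_abs, sq_abs, sq]
        rw [← h2, h]; norm_num
      simp [this]
    show _ ≤ ∑ l, ∑ α, u α l * u α l
    rw [h1]
    exact_mod_cast hW
  · intro y hy l
    have h1 : ∀ α, ∑ m, u α m * (y m : ℝ) = 0 := by
      intro α
      have h2 : inner ℝ (u α) (T y) = 0 := by
        have h3 : (u α : E) ∈ Uᗮ := (o α).2
        exact Submodule.inner_left_of_mem_orthogonal (hTU y hy) h3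
      rw [← h2]
      exact (hin α _).symm
    show ∑ m, (∑ α, u α l * u α m) * (y m : ℝ) = 0
    simp only [sum_mul]
    rw [sum_comm]
    refine sum_eq_zero fun α _ => ?_
    have : ∑ m, u α l * u α m * (y m : ℝ) = u α l * ∑ m, u α m * (y m : ℝ) := by
      rw [mul_sum]
      refine sum_congr rfl fun m _ => by ring
    rw [this, h1 α, mul_zero]

/-- the pointwise inequality -/
theorem ti {μ p C S M : ℝ} (hμ0 : 0 < μ) (hμ : μ < 1 / 2) (hp0 : 0 ≤ p) (hp1 : p ≤ 1)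
    (hCS : C ^ 2 + S ^ 2 = 1) (hM : μ ≤ 1 / 3 ∧ M = 1 - μ ∨ 1 / 3 ≤ μ ∧ M = 2 * μ) :
    p + μ * (S / (1 - μ + μ * C)) ^ 2 ≤ M * ((1 - C) / (1 - μ + μ * C)) +
      p * (C / (1 - μ + μ * C) + μ * (S / (1 - μ + μ * C)) ^ 2) := by
  have hC1 : C ≤ 1 := by nlinarith [sq_nonneg S]
  have hC2 : -1 ≤ C := by nlinarith [sq_nonneg S]
  set h := 1 - μ + μ * C with hh
  have hpos : 0 < h := by nlinarith
  have hS : S ^ 2 = 1 - C ^ 2 := by linarith
  have key : p * h ^ 2 + μ * S ^ 2 ≤ M * ((1 - C) * h) + p * (C * h + μ * S ^ 2) := by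
    rw [hS]
    have he : 0 ≤ 1 - C := by linarith
    rcases hM with ⟨h1, rfl⟩ | ⟨h1, rfl⟩
    · have hb : 0 ≤ (1 - C) * ((1 - p) * (1 - 3 * μ + μ ^ 2 * (1 - C))) := by
        apply mul_nonneg he
        apply mul_nonneg (by linarith)
        nlinarith [mul_nonneg (sq_nonneg μ) he]
      have : (1 - μ) * ((1 - C) * h) + p * (C * h + μ * (1 - C ^ 2)) -
          (p * h ^ 2 + μ * (1 - C ^ 2)) = (1 - C) * ((1 - p) * (1 - 3 * μ + μ ^ 2 * (1 - C))) := by
        rw [hh]; ring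
      linarith
    · have hb : 0 ≤ (1 - C) * ((1 - p) * (μ * (1 - C) * (1 - 2 * μ)) + p * ((3 * μ - 1) * h)) := by
        apply mul_nonneg he
        apply add_nonneg
        · apply mul_nonneg (by linarith)
          apply mul_nonneg (by positivity) (by linarith)
        · apply mul_nonneg hp0
          apply mul_nonneg (by linarith) hpos.le
      have : 2 * μ * ((1 - C) * h) + p * (C * h + μ * (1 - C ^ 2)) -
          (p * h ^ 2 + μ * (1 - C ^ 2)) =
          (1 - C) * ((1 - p) * (μ * (1 - C) * (1 - 2 * μ)) + p * ((3 * μ - 1) * h)) := by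
        rw [hh]; ring
      linarith
  have e1 : p + μ * (S / h) ^ 2 = (p * h ^ 2 + μ * S ^ 2) / h ^ 2 := by
    field_simp
  have e2 : M * ((1 - C) / h) + p * (C / h + μ * (S / h) ^ 2) =
      (M * ((1 - C) * h) + p * (C * h + μ * S ^ 2)) / h ^ 2 := by
    field_simp
  rw [e1, e2]
  exact div_le_div_of_nonneg_right key (by positivity)

/-! ### integration by parts -/

/-- the law -/
noncomputable def wm (μ : ℝ) (b : Fin 3) : ℝ := if b = 0 then 1 - μ else μ / 2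

theorem wm_0 (μ : ℝ) : wm μ 0 = 1 - μ := by simp [wm]
theorem wm_1 (μ : ℝ) : wm μ 1 = μ / 2 := by simp [wm]
theorem wm_2 (μ : ℝ) : wm μ 2 = μ / 2 := by
  unfold wm; rw [if_neg (by decide)]

/-- the weights -/
noncomputable def W {k : ℕ} (μ : ℝ) (l m j : Fin k) (b : Fin 3) : ℝ :=
  (if j = l then (val b : ℝ) / 2 else wm μ b) * (if j = m then (val b : ℝ) else 1)

/-- the local factors -/
noncomputable def loc {k : ℕ} (μ : ℝ) (l m j : Fin k) (z : ℂ) : ℂ :=
  if j = l then (if j = m then (z.re : ℂ) else Complex.I * z.im)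
  else (if j = m then (μ : ℂ) * (Complex.I * z.im) else ((1 - μ + μ * z.re : ℝ) : ℂ))

theorem sub_inv' {z : ℂ} (hz : ‖z‖ = 1) : z - z⁻¹ = 2 * (Complex.I * z.im) := by
  rw [inv_eq_conj' hz, Complex.sub_conj]
  push_cast
  ring

theorem loc_eq {k : ℕ} (μ : ℝ) (l m j : Fin k) {z : ℂ} (hz : ‖z‖ = 1) :
    ∑ b, (W μ l m j b : ℂ) * z ^ (val b) = loc μ l m j z := by
  have ha := add_inv' hz
  have hs := sub_inv' hz
  rw [Fin.sum_univ_three]
  unfold W loc
  rw [val_0, val_1, val_2, wm_0, wm_1, wm_2, zpow_zero, zpow_one, zpow_neg_one]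
  split_ifs with h1 h2 h2
  · push_cast
    linear_combination (1 / 2 : ℂ) * ha
  · push_cast
    linear_combination (1 / 2 : ℂ) * hs
  · push_cast
    linear_combination ((μ : ℂ) / 2) * hs
  · push_cast
    linear_combination ((μ : ℂ) / 2) * ha

section ibp

variable {G : Type} [AddCommGroup G] [Fintype G] [DecidableEq G]

/-- the real part -/
noncomputable def Cc {k : ℕ} (c : Fin k → G) (ψ : AddChar G ℂ) (i : Fin k) : ℝ := (ψ (c i)).re

/-- the imaginary part -/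
noncomputable def Sc {k : ℕ} (c : Fin k → G) (ψ : AddChar G ℂ) (i : Fin k) : ℝ := (ψ (c i)).im

/-- the factor -/
noncomputable def hc {k : ℕ} (c : Fin k → G) (μ : ℝ) (ψ : AddChar G ℂ) (i : Fin k) : ℝ :=
  1 - μ + μ * Cc c ψ i

omit [DecidableEq G] in
theorem cs {k : ℕ} (c : Fin k → G) (ψ : AddChar G ℂ) (i : Fin k) :
    Cc c ψ i ^ 2 + Sc c ψ i ^ 2 = 1 := by
  have h := norm_addChar' ψ (c i)
  have h2 : Complex.normSq (ψ (c i)) = 1 := by
    rw [Complex.normSq_eq_norm_sq, h]; norm_num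
  rw [Complex.normSq_apply] at h2
  unfold Cc Sc
  linarith

omit [DecidableEq G] in
theorem hc_pos {k : ℕ} (c : Fin k → G) {μ : ℝ} (hμ0 : 0 < μ) (hμ : μ < 1 / 2)
    (ψ : AddChar G ℂ) (i : Fin k) : 0 < hc c μ ψ i := by
  have h := cs c ψ i
  have : -1 ≤ Cc c ψ i := by nlinarith [sq_nonneg (Sc c ψ i)]
  unfold hc
  nlinarith

omit [DecidableEq G] in
theorem prod_loc {k : ℕ} (c : Fin k → G) {μ : ℝ} (hμ0 : 0 < μ) (hμ : μ < 1 / 2)
    (ψ : AddChar G ℂ) (l m : Fin k) :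
    ∏ j, loc μ l m j (ψ (c j)) = (((∏ j, hc c μ ψ j) *
      (-(μ * (Sc c ψ l / hc c μ ψ l) * (Sc c ψ m / hc c μ ψ m)) +
        if m = l then Cc c ψ l / hc c μ ψ l + μ * (Sc c ψ l / hc c μ ψ l) ^ 2 else 0) : ℝ) : ℂ) := by
  have hne : ∀ j, ((hc c μ ψ j : ℝ) : ℂ) ≠ 0 := fun j => by
    exact_mod_cast (hc_pos c hμ0 hμ ψ j).ne'
  by_cases hml : m = l
  · subst hml
    have h1 : ∀ j, loc μ m m j (ψ (c j)) = (hc c μ ψ j : ℂ) *
        (if j = m then ((Cc c ψ m / hc c μ ψ m : ℝ) : ℂ) else 1) := by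
      intro j
      unfold loc
      by_cases hj : j = m
      · subst hj
        rw [if_pos rfl, if_pos rfl, if_pos rfl]
        have := hne j
        push_cast
        field_simp
        rfl
      · rw [if_neg hj, if_neg hj, if_neg hj, mul_one]
        rfl
    simp only [h1, if_true]
    rw [prod_mul_distrib, prod_ite_eq', if_pos (mem_univ _)]
    push_cast
    ring
  · have h1 : ∀ j, loc μ l m j (ψ (c j)) = (hc c μ ψ j : ℂ) *
        ((if j = l then Complex.I * ((Sc c ψ l / hc c μ ψ l : ℝ) : ℂ) else 1) *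
        (if j = m then (μ : ℂ) * (Complex.I * ((Sc c ψ m / hc c μ ψ m : ℝ) : ℂ)) else 1)) := by
      intro j
      have := hne j
      unfold loc
      by_cases hj : j = l
      · subst hj
        rw [if_pos rfl, if_pos rfl, if_neg (Ne.symm hml), if_neg (Ne.symm hml), mul_one]
        push_cast
        field_simp
        rfl
      · rw [if_neg hj, if_neg hj, one_mul]
        by_cases hj2 : j = m
        · subst hj2
          rw [if_pos rfl, if_pos rfl]
          push_cast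
          field_simp
          rfl
        · rw [if_neg hj2, if_neg hj2, mul_one]
          rfl
    simp only [h1]
    rw [prod_mul_distrib, prod_mul_distrib, prod_ite_eq', prod_ite_eq', if_pos (mem_univ _),
      if_pos (mem_univ _), if_neg hml]
    have hI := Complex.I_sq
    push_cast
    linear_combination (∏ j, (hc c μ ψ j : ℂ)) * ((Sc c ψ l : ℂ) / (hc c μ ψ l)) * μ *
      ((Sc c ψ m : ℂ) / (hc c μ ψ m)) * hI

theorem sum_loc {k : ℕ} (V : Submodule ℚ (Fin k → ℚ)) (c : Fin k → G)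
    (hcV : ∀ y : Fin k → ℤ, (∀ i, |y i| ≤ 2) →
        (∑ i, y i • c i = 0 ↔ (fun i => (y i : ℚ)) ∈ V))
    (P : Fin k → Fin k → ℝ) (hP : ∀ y ∈ V, ∀ l, ∑ m, P l m * (y m : ℝ) = 0)
    (μ : ℝ) (l : Fin k) :
    ∑ m, (P l m : ℂ) * ∑ ψ : AddChar G ℂ, ∏ j, loc μ l m j (ψ (c j)) = 0 := by
  have h1 : ∀ m, ∑ ψ : AddChar G ℂ, ∏ j, loc μ l m j (ψ (c j)) =
      (Fintype.card G : ℂ) * (∑ x : Fin k → Fin 3, if ∑ i, val (x i) • c i = 0 then
        ∏ i, (W μ l m i (x i) : ℂ) else 0) := by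
    intro m
    rw [fourierC (fun i b => (W μ l m i b : ℂ)) Swap304.val c]
    refine sum_congr rfl fun ψ _ => prod_congr rfl fun j _ => ?_
    exact (loc_eq μ l m j (norm_addChar' ψ _)).symm
  simp only [h1]
  have h2 : ∑ m, (P l m : ℂ) * ((Fintype.card G : ℂ) * (∑ x : Fin k → Fin 3,
      if ∑ i, val (x i) • c i = 0 then ∏ i, (W μ l m i (x i) : ℂ) else 0)) =
      (Fintype.card G : ℂ) * ∑ x : Fin k → Fin 3, if ∑ i, val (x i) • c i = 0 then
        ((∏ i, (if i = l then ((val (x i) : ℝ) : ℂ) / 2 else (wm μ (x i) : ℂ))) *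
        ((∑ m, P l m * (val (x m) : ℝ) : ℝ) : ℂ)) else 0 := by
    have h3 : ∀ m, (P l m : ℂ) * ((Fintype.card G : ℂ) * (∑ x : Fin k → Fin 3,
      if ∑ i, val (x i) • c i = 0 then ∏ i, (W μ l m i (x i) : ℂ) else 0)) =
      (Fintype.card G : ℂ) * ∑ x : Fin k → Fin 3, if ∑ i, val (x i) • c i = 0 then
        (P l m : ℂ) * ∏ i, (W μ l m i (x i) : ℂ) else 0 := by
      intro m
      rw [mul_left_comm, mul_sum]
      congr 1
      refine sum_congr rfl fun x _ => ?_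
      split_ifs
      · rfl
      · rw [mul_zero]
    simp only [h3]
    rw [← mul_sum, sum_comm]
    congr 1
    refine sum_congr rfl fun x _ => ?_
    by_cases hx : ∑ i, val (x i) • c i = 0
    · simp only [if_pos hx]
      push_cast
      rw [mul_sum]
      refine sum_congr rfl fun m _ => ?_
      have h4 : ∏ i, (W μ l m i (x i) : ℂ) =
          (∏ i, (if i = l then ((val (x i) : ℝ) : ℂ) / 2 else (wm μ (x i) : ℂ))) *
            ((val (x m) : ℝ) : ℂ) := by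
        have h5 : ∀ i, (W μ l m i (x i) : ℂ) =
            (if i = l then ((val (x i) : ℝ) : ℂ) / 2 else (wm μ (x i) : ℂ)) *
            (if i = m then ((val (x i) : ℝ) : ℂ) else 1) := by
          intro i
          unfold W
          push_cast
          split_ifs <;> push_cast <;> rfl
        simp only [h5]
        rw [prod_mul_distrib, prod_ite_eq', if_pos (mem_univ _)]
      rw [h4]
      push_cast
      ring
    · simp only [if_neg hx, sum_const_zero]
  rw [h2]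
  have h6 : ∀ x : Fin k → Fin 3, (if ∑ i, val (x i) • c i = 0 then
        ((∏ i, (if i = l then ((val (x i) : ℝ) : ℂ) / 2 else (wm μ (x i) : ℂ))) *
        ((∑ m, P l m * (val (x m) : ℝ) : ℝ) : ℂ)) else 0) = 0 := by
    intro x
    by_cases hx : ∑ i, val (x i) • c i = 0
    · rw [if_pos hx]
      have hb : ∀ i, |val (x i)| ≤ 2 := by
        intro i
        unfold Swap304.val
        split_ifs <;> norm_num
      have hV := (hcV (fun i => val (x i)) hb).1 hx
      have := hP _ hV l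
      have h7 : ∑ m, P l m * (val (x m) : ℝ) = 0 := by
        rw [← this]
        refine sum_congr rfl fun m _ => ?_
        push_cast
        rfl
      rw [h7]
      simp
    · rw [if_neg hx]
  simp only [h6, sum_const_zero, mul_zero]

theorem ibp {k : ℕ} (V : Submodule ℚ (Fin k → ℚ)) (c : Fin k → G)
    (hcV : ∀ y : Fin k → ℤ, (∀ i, |y i| ≤ 2) →
        (∑ i, y i • c i = 0 ↔ (fun i => (y i : ℚ)) ∈ V))
    (P : Fin k → Fin k → ℝ) (hP : ∀ y ∈ V, ∀ l, ∑ m, P l m * (y m : ℝ) = 0)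
    {μ : ℝ} (hμ0 : 0 < μ) (hμ : μ < 1 / 2) (l : Fin k) :
    ∑ ψ : AddChar G ℂ, (∏ j, hc c μ ψ j) *
      (P l l * (Cc c ψ l / hc c μ ψ l + μ * (Sc c ψ l / hc c μ ψ l) ^ 2) -
        μ * ∑ m, P l m * ((Sc c ψ l / hc c μ ψ l) * (Sc c ψ m / hc c μ ψ m))) = 0 := by
  have h := sum_loc V c hcV P hP μ l
  simp only [prod_loc c hμ0 hμ, mul_sum] at h
  rw [sum_comm] at h
  have h' : ((∑ ψ : AddChar G ℂ, ∑ m, P l m * ((∏ j, hc c μ ψ j) *
      (-(μ * (Sc c ψ l / hc c μ ψ l) * (Sc c ψ m / hc c μ ψ m)) +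
        if m = l then Cc c ψ l / hc c μ ψ l + μ * (Sc c ψ l / hc c μ ψ l) ^ 2 else 0)) : ℝ) : ℂ)
      = 0 := by
    rw [← h]
    push_cast
    rfl
  have h2 := Complex.ofReal_eq_zero.1 h'
  rw [← h2]
  refine sum_congr rfl fun ψ _ => ?_
  have h3 : ∀ m, P l m * ((∏ j, hc c μ ψ j) *
      (-(μ * (Sc c ψ l / hc c μ ψ l) * (Sc c ψ m / hc c μ ψ m)) +
        if m = l then Cc c ψ l / hc c μ ψ l + μ * (Sc c ψ l / hc c μ ψ l) ^ 2 else 0)) =
      (∏ j, hc c μ ψ j) * (-(μ * (P l m * ((Sc c ψ l / hc c μ ψ l) *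
        (Sc c ψ m / hc c μ ψ m))))) + (if m = l then (∏ j, hc c μ ψ j) * (P l m *
        (Cc c ψ l / hc c μ ψ l + μ * (Sc c ψ l / hc c μ ψ l) ^ 2)) else 0) := by
    intro m
    split_ifs <;> ring
  simp only [h3]
  rw [sum_add_distrib, sum_ite_eq', if_pos (mem_univ _), ← mul_sum, sum_neg_distrib, ← mul_sum]
  ring

/-- `|G| Z μ` -/
noncomputable def FF {k : ℕ} (c : Fin k → G) (μ : ℝ) : ℝ :=
  ∑ ψ : AddChar G ℂ, ∏ j, (1 - μ + μ * Cc c ψ j)

/-- `-|G| Z' μ` -/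
noncomputable def DD {k : ℕ} (c : Fin k → G) (μ : ℝ) : ℝ :=
  ∑ ψ : AddChar G ℂ, ∑ l, (∏ j ∈ univ.erase l, (1 - μ + μ * Cc c ψ j)) * (1 - Cc c ψ l)

omit [DecidableEq G] in
theorem hasDerivAt_FF {k : ℕ} (c : Fin k → G) (μ : ℝ) : HasDerivAt (FF c) (-DD c μ) μ := by
  have h1 : HasDerivAt (fun μ : ℝ => ∑ ψ : AddChar G ℂ, ∏ j, (1 - μ + μ * Cc c ψ j))
      (∑ ψ : AddChar G ℂ, ∑ l, (∏ j ∈ univ.erase l, (1 - μ + μ * Cc c ψ j)) •
        (-1 + Cc c ψ l)) μ := by
    refine HasDerivAt.fun_sum fun ψ _ => ?_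
    refine HasDerivAt.fun_finsetProd fun l _ => ?_
    have h2 : HasDerivAt (fun μ : ℝ => 1 - μ) (-1) μ := by
      simpa using (hasDerivAt_id μ).const_sub 1
    have h3 : HasDerivAt (fun μ : ℝ => μ * Cc c ψ l) (Cc c ψ l) μ := by
      simpa using (hasDerivAt_id μ).mul_const (Cc c ψ l)
    exact h2.add h3
  have e : -DD c μ = ∑ ψ : AddChar G ℂ, ∑ l, (∏ j ∈ univ.erase l, (1 - μ + μ * Cc c ψ j)) •
        (-1 + Cc c ψ l) := by
    unfold DD
    rw [← sum_neg_distrib]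
    refine sum_congr rfl fun ψ _ => ?_
    rw [← sum_neg_distrib]
    refine sum_congr rfl fun l _ => ?_
    rw [smul_eq_mul]
    ring
  rw [e]
  exact h1

omit [DecidableEq G] in
theorem FF_nonneg {k : ℕ} (c : Fin k → G) {μ : ℝ} (hμ0 : 0 ≤ μ) (hμ : μ ≤ 1 / 2) : 0 ≤ FF c μ := by
  refine sum_nonneg fun ψ _ => prod_nonneg fun j _ => ?_
  have h := cs c ψ j
  have : -1 ≤ Cc c ψ j := by nlinarith [sq_nonneg (Sc c ψ j)]
  nlinarith

theorem diff_ineq {k : ℕ} (V : Submodule ℚ (Fin k → ℚ)) (c : Fin k → G)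
    (hcV : ∀ y : Fin k → ℤ, (∀ i, |y i| ≤ 2) →
        (∑ i, y i • c i = 0 ↔ (fun i => (y i : ℚ)) ∈ V))
    {μ M : ℝ} (hμ0 : 0 < μ) (hμ : μ < 1 / 2)
    (hM : μ ≤ 1 / 3 ∧ M = 1 - μ ∨ 1 / 3 ≤ μ ∧ M = 2 * μ) :
    ((k - finrank ℚ V : ℕ) : ℝ) * FF c μ ≤ M * DD c μ := by
  obtain ⟨P, hP0, hP1, htr, hPV, hq⟩ := exists_proj V
  have hib := fun l => ibp V c hcV P hPV hμ0 hμ l
  have hH : ∀ ψ : AddChar G ℂ, 0 < ∏ j, hc c μ ψ j := fun ψ =>
    prod_pos fun j _ => hc_pos c hμ0 hμ ψ j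
  have h1 : ∀ ψ : AddChar G ℂ, ((k - finrank ℚ V : ℕ) : ℝ) * ∏ j, hc c μ ψ j ≤
      M * (∑ l, (∏ j ∈ univ.erase l, (1 - μ + μ * Cc c ψ j)) * (1 - Cc c ψ l)) +
      ∑ l, (∏ j, hc c μ ψ j) *
      (P l l * (Cc c ψ l / hc c μ ψ l + μ * (Sc c ψ l / hc c μ ψ l) ^ 2) -
        μ * ∑ m, P l m * ((Sc c ψ l / hc c μ ψ l) * (Sc c ψ m / hc c μ ψ m))) := by
    intro ψ
    set H := ∏ j, hc c μ ψ j with hHdef
    have e1 : ∀ l, (∏ j ∈ univ.erase l, (1 - μ + μ * Cc c ψ j)) * (1 - Cc c ψ l) =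
        H * ((1 - Cc c ψ l) / hc c μ ψ l) := by
      intro l
      have h2 : H = hc c μ ψ l * ∏ j ∈ univ.erase l, (1 - μ + μ * Cc c ψ j) := by
        rw [hHdef, ← mul_prod_erase univ _ (mem_univ l)]
        rfl
      have h3 := (hc_pos c hμ0 hμ ψ l).ne'
      rw [h2]
      field_simp
    simp only [e1]
    rw [← mul_sum, ← mul_sum, mul_left_comm, ← mul_add, mul_comm]
    refine mul_le_mul_of_nonneg_left ?_ (hH ψ).le
    have h4 : ∀ l, P l l + μ * (Sc c ψ l / hc c μ ψ l) ^ 2 ≤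
        M * ((1 - Cc c ψ l) / hc c μ ψ l) +
        P l l * (Cc c ψ l / hc c μ ψ l + μ * (Sc c ψ l / hc c μ ψ l) ^ 2) := fun l =>
      ti hμ0 hμ (hP0 l) (hP1 l) (cs c ψ l) hM
    have h5 := sum_le_sum fun l (_ : l ∈ (univ : Finset (Fin k))) => h4 l
    rw [sum_add_distrib, sum_add_distrib, ← mul_sum, ← mul_sum] at h5
    have h6 := hq (fun l => Sc c ψ l / hc c μ ψ l)
    have h7 : μ * ∑ l, ∑ m, P l m * ((Sc c ψ l / hc c μ ψ l) * (Sc c ψ m / hc c μ ψ m)) ≤
        μ * ∑ l, (Sc c ψ l / hc c μ ψ l) ^ 2 := mul_le_mul_of_nonneg_left h6 hμ0.le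
    rw [sum_sub_distrib, ← mul_sum]
    linarith
  have h2 := sum_le_sum fun ψ (_ : ψ ∈ (univ : Finset (AddChar G ℂ))) => h1 ψ
  rw [sum_add_distrib, ← mul_sum, ← mul_sum] at h2
  have h3 : ∑ ψ : AddChar G ℂ, ∑ l, (∏ j, hc c μ ψ j) *
      (P l l * (Cc c ψ l / hc c μ ψ l + μ * (Sc c ψ l / hc c μ ψ l) ^ 2) -
        μ * ∑ m, P l m * ((Sc c ψ l / hc c μ ψ l) * (Sc c ψ m / hc c μ ψ m))) = 0 := by
    rw [sum_comm]
    exact sum_eq_zero fun l _ => hib l
  rw [h3, add_zero] at h2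
  exact h2

theorem half_le {k : ℕ} (V : Submodule ℚ (Fin k → ℚ)) (c : Fin k → G)
    (hcV : ∀ y : Fin k → ℤ, (∀ i, |y i| ≤ 2) →
        (∑ i, y i • c i = 0 ↔ (fun i => (y i : ℚ)) ∈ V)) :
    (1 / 2 : ℝ) ^ (k - finrank ℚ V) * FF c (1 / 2) ^ 2 ≤
      (1 / 3 : ℝ) ^ (k - finrank ℚ V) * FF c (1 / 3) ^ 2 := by
  set r := k - finrank ℚ V with hr
  have hder : ∀ μ : ℝ, HasDerivAt (fun μ : ℝ => μ ^ r * FF c μ ^ 2)
      ((r : ℝ) * μ ^ (r - 1) * FF c μ ^ 2 + μ ^ r * (2 * FF c μ * (-DD c μ))) μ := by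
    intro μ
    have h1 := hasDerivAt_pow r μ
    have h2 := (hasDerivAt_FF c μ).pow 2
    have h3 := h1.mul h2
    refine HasDerivAt.congr_deriv (f := fun μ : ℝ => μ ^ r * FF c μ ^ 2) h3 ?_
    push_cast
    simp
  have hanti : AntitoneOn (fun μ : ℝ => μ ^ r * FF c μ ^ 2) (Set.Icc (1 / 3) (1 / 2)) := by
    apply antitoneOn_of_deriv_nonpos (convex_Icc _ _)
    · exact fun μ _ => (hder μ).continuousAt.continuousWithinAt
    · exact fun μ _ => (hder μ).differentiableAt.differentiableWithinAt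
    · intro μ hμ
      rw [interior_Icc] at hμ
      rw [(hder μ).deriv]
      have hμ0 : 0 < μ := lt_trans (by norm_num) hμ.1
      have h1 := diff_ineq V c hcV (M := 2 * μ) hμ0 hμ.2 (Or.inr ⟨hμ.1.le, rfl⟩)
      rw [← hr] at h1
      have hF := FF_nonneg c hμ0.le hμ.2.le
      have h2 : ((r : ℝ) * μ ^ (r - 1) * FF c μ ^ 2 + μ ^ r * (2 * FF c μ * (-DD c μ))) * μ =
          μ ^ r * FF c μ * ((r : ℝ) * FF c μ - 2 * μ * DD c μ) := by
        rcases Nat.eq_zero_or_pos r with h0 | h0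
        · rw [h0]; simp; ring
        · obtain ⟨s, hs⟩ : ∃ s, r = s + 1 := ⟨r - 1, by omega⟩
          rw [hs]
          simp only [Nat.add_sub_cancel]
          push_cast
          ring
      have h3 : ((r : ℝ) * μ ^ (r - 1) * FF c μ ^ 2 + μ ^ r * (2 * FF c μ * (-DD c μ))) * μ ≤ 0 := by
        rw [h2]
        exact mul_nonpos_of_nonneg_of_nonpos (by positivity) (by linarith)
      by_contra hcon
      push Not at hcon
      have := mul_pos hcon hμ0
      linarith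
  exact hanti ⟨le_rfl, by norm_num⟩ ⟨by norm_num, le_rfl⟩ (by norm_num)

theorem third_le {k : ℕ} (V : Submodule ℚ (Fin k → ℚ)) (c : Fin k → G)
    (hcV : ∀ y : Fin k → ℤ, (∀ i, |y i| ≤ 2) →
        (∑ i, y i • c i = 0 ↔ (fun i => (y i : ℚ)) ∈ V)) {μ₀ : ℝ} (h0 : 0 < μ₀) (h1 : μ₀ ≤ 1 / 3) :
    ((1 - (1 / 3 : ℝ))⁻¹) ^ (k - finrank ℚ V) * FF c (1 / 3) ≤
      ((1 - μ₀)⁻¹) ^ (k - finrank ℚ V) * FF c μ₀ := by
  set r := k - finrank ℚ V with hr
  have hder : ∀ μ : ℝ, μ < 1 → HasDerivAt (fun μ : ℝ => ((1 - μ)⁻¹) ^ r * FF c μ)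
      (((1 - μ)⁻¹) ^ r * (1 - μ)⁻¹ * ((r : ℝ) * FF c μ - (1 - μ) * DD c μ)) μ := by
    intro μ hμ
    have hne : 1 - μ ≠ 0 := by linarith
    have h1 : HasDerivAt (fun μ : ℝ => 1 - μ) (-1) μ := by
      simpa using (hasDerivAt_id μ).const_sub 1
    have h2 := (h1.inv hne).pow r
    have h3 := h2.mul (hasDerivAt_FF c μ)
    refine HasDerivAt.congr_deriv (f := fun μ : ℝ => ((1 - μ)⁻¹) ^ r * FF c μ) h3 ?_
    simp only [Pi.pow_apply, Pi.inv_apply]
    have e : - -1 / (1 - μ) ^ 2 = ((1 - μ)⁻¹) ^ 2 := by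
      rw [neg_neg, one_div, inv_pow]
    rw [e]
    have hq : (1 - μ) * (1 - μ)⁻¹ = 1 := mul_inv_cancel₀ hne
    rcases Nat.eq_zero_or_pos r with h0 | h0
    · rw [h0]
      push_cast
      linear_combination DD c μ * hq
    · obtain ⟨s, hs⟩ : ∃ s, r = s + 1 := ⟨r - 1, by omega⟩
      rw [hs]
      simp only [Nat.add_sub_cancel]
      push_cast
      linear_combination (((1 - μ)⁻¹) ^ (s + 1) * DD c μ) * hq
  have hanti : AntitoneOn (fun μ : ℝ => ((1 - μ)⁻¹) ^ r * FF c μ) (Set.Icc μ₀ (1 / 3)) := by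
    apply antitoneOn_of_deriv_nonpos (convex_Icc _ _)
    · exact fun μ hμ => (hder μ (by linarith [hμ.2])).continuousAt.continuousWithinAt
    · intro μ hμ
      rw [interior_Icc] at hμ
      exact (hder μ (by linarith [hμ.2])).differentiableAt.differentiableWithinAt
    · intro μ hμ
      rw [interior_Icc] at hμ
      have hμ0 : 0 < μ := lt_trans h0 hμ.1
      rw [(hder μ (by linarith [hμ.2])).deriv]
      have h2 := diff_ineq V c hcV (M := 1 - μ) hμ0 (by linarith [hμ.2]) (Or.inl ⟨hμ.2.le, rfl⟩)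
      rw [← hr] at h2
      have : 0 < 1 - μ := by linarith [hμ.2]
      exact mul_nonpos_of_nonneg_of_nonpos (by positivity) (by linarith)
  exact hanti ⟨le_rfl, h1⟩ ⟨h1, le_rfl⟩ h1

theorem quarter_le {k : ℕ} (V : Submodule ℚ (Fin k → ℚ)) (c : Fin k → G)
    (hcV : ∀ y : Fin k → ℤ, (∀ i, |y i| ≤ 2) →
        (∑ i, y i • c i = 0 ↔ (fun i => (y i : ℚ)) ∈ V)) :
    FF c (1 / 2) ≤ (3 / 4 : ℝ) ^ (k - finrank ℚ V) * FF c (1 / 4) := by
  have h1 := half_le V c hcV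
  have h2 := third_le V c hcV (μ₀ := 1 / 4) (by norm_num) (by norm_num)
  set r := k - finrank ℚ V with hr
  have f2 := FF_nonneg c (μ := 1 / 2) (by norm_num) le_rfl
  have f3 := FF_nonneg c (μ := 1 / 3) (by norm_num) (by norm_num)
  have f4 := FF_nonneg c (μ := 1 / 4) (by norm_num) (by norm_num)
  have e1 : (1 - (1 / 3 : ℝ))⁻¹ = 3 / 2 := by norm_num
  have e2 : (1 - (1 / 4 : ℝ))⁻¹ = 4 / 3 := by norm_num
  rw [e1, e2] at h2
  have h3 : FF c (1 / 3) ≤ (8 / 9 : ℝ) ^ r * FF c (1 / 4) := by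
    have h4 : (2 / 3 : ℝ) ^ r * ((3 / 2 : ℝ) ^ r * FF c (1 / 3)) ≤
        (2 / 3 : ℝ) ^ r * ((4 / 3 : ℝ) ^ r * FF c (1 / 4)) :=
      mul_le_mul_of_nonneg_left h2 (by positivity)
    rw [← mul_assoc, ← mul_assoc, ← mul_pow, ← mul_pow] at h4
    norm_num at h4
    exact h4
  have h5 : FF c (1 / 2) ^ 2 ≤ (2 / 3 : ℝ) ^ r * FF c (1 / 3) ^ 2 := by
    have h4 : (2 : ℝ) ^ r * ((1 / 2 : ℝ) ^ r * FF c (1 / 2) ^ 2) ≤
        (2 : ℝ) ^ r * ((1 / 3 : ℝ) ^ r * FF c (1 / 3) ^ 2) :=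
      mul_le_mul_of_nonneg_left h1 (by positivity)
    rw [← mul_assoc, ← mul_assoc, ← mul_pow, ← mul_pow] at h4
    norm_num at h4
    exact h4
  have h6 : FF c (1 / 2) ^ 2 ≤ ((3 / 4 : ℝ) ^ r * FF c (1 / 4)) ^ 2 := by
    calc FF c (1 / 2) ^ 2 ≤ (2 / 3 : ℝ) ^ r * FF c (1 / 3) ^ 2 := h5
      _ ≤ (2 / 3 : ℝ) ^ r * ((8 / 9 : ℝ) ^ r * FF c (1 / 4)) ^ 2 := by
          refine mul_le_mul_of_nonneg_left ?_ (by positivity)
          exact pow_le_pow_left₀ f3 h3 2
      _ = (128 / 243 : ℝ) ^ r * FF c (1 / 4) ^ 2 := by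
          rw [mul_pow, ← pow_mul, mul_comm r 2, pow_mul, ← mul_assoc, ← mul_pow]
          norm_num
      _ ≤ (9 / 16 : ℝ) ^ r * FF c (1 / 4) ^ 2 := by
          refine mul_le_mul_of_nonneg_right ?_ (by positivity)
          exact pow_le_pow_left₀ (by norm_num) (by norm_num) r
      _ = ((3 / 4 : ℝ) ^ r * FF c (1 / 4)) ^ 2 := by
          rw [mul_pow, ← pow_mul, mul_comm r 2, pow_mul]
          norm_num
  exact le_of_pow_le_pow_left₀ (by norm_num) (by positivity) h6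

end ibp

theorem vb (b : Fin 3) : |Swap304.val b| ≤ 2 := by
  unfold Swap304.val
  split_ifs <;> norm_num

open Classical in
/-- **swap lemma with the factor `3/4`** -/
theorem swap34 {k : ℕ} (V : Submodule ℚ (Fin k → ℚ)) :
    (∑ x : Fin k → Fin 3 with vec x ∈ V, u x) ≤
      (3 / 4 : ℝ) ^ (k - finrank ℚ V) * ∑ x : Fin k → Fin 3 with vec x ∈ V, v x := by
  obtain ⟨G, _, _, _, c, hc⟩ := exists_group V
  have hg0 : (0 : ℝ) < Fintype.card G := by exact_mod_cast Fintype.card_pos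
  have e1 : (Fintype.card G : ℝ) * (∑ x : Fin k → Fin 3 with vec x ∈ V, u x) = FF c (1 / 2) := by
    have h := fourier (fun _ => w4) Swap304.val c (fun _ t => (1 + t) / 2) (fun _ z hz => cf4 z hz)
    have h2 : FF c (1 / 2) = ∑ ψ : AddChar G ℂ, ∏ i, (1 + (ψ (c i)).re) / 2 := by
      refine sum_congr rfl fun ψ _ => prod_congr rfl fun j _ => ?_
      unfold Cc
      ring
    rw [h2, ← h]
    congr 1
    rw [sum_filter]
    refine sum_congr rfl fun x _ => ?_
    have h1 := hc (fun i => Swap304.val (x i)) (fun i => vb _)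
    by_cases hx : vec x ∈ V
    · rw [if_pos hx, if_pos (h1.2 hx)]; rfl
    · rw [if_neg hx, if_neg (fun h => hx (h1.1 h))]
  have e2 : (Fintype.card G : ℝ) * (∑ x : Fin k → Fin 3 with vec x ∈ V, v x) = FF c (1 / 4) := by
    have h := fourier (fun _ => w8) Swap304.val c (fun _ t => (3 + t) / 4) (fun _ z hz => cf8 z hz)
    have h2 : FF c (1 / 4) = ∑ ψ : AddChar G ℂ, ∏ i, (3 + (ψ (c i)).re) / 4 := by
      refine sum_congr rfl fun ψ _ => prod_congr rfl fun j _ => ?_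
      unfold Cc
      ring
    rw [h2, ← h]
    congr 1
    rw [sum_filter]
    refine sum_congr rfl fun x _ => ?_
    have h1 := hc (fun i => Swap304.val (x i)) (fun i => vb _)
    by_cases hx : vec x ∈ V
    · rw [if_pos hx, if_pos (h1.2 hx)]; rfl
    · rw [if_neg hx, if_neg (fun h => hx (h1.1 h))]
  have h := quarter_le V c hc
  rw [← e1, ← e2] at h
  have h3 : (Fintype.card G : ℝ) * (∑ x : Fin k → Fin 3 with vec x ∈ V, u x) ≤
      (Fintype.card G : ℝ) * ((3 / 4 : ℝ) ^ (k - finrank ℚ V) *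
        ∑ x : Fin k → Fin 3 with vec x ∈ V, v x) := by
    calc _ ≤ _ := h
      _ = _ := by ring
  exact le_of_mul_le_mul_left h3 hg0

end Vale.Agent.P160.RD.Grow519
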