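import Mathlib

/-!
# P160, block (M): preparations for the growth lemma (orthonormal family of `V^⊥`, calculus)
-/

namespace Vale.Agent.P160.RD.Growth304

open Finset Module

theorem exists_orth {k : ℕ} (V : Submodule ℚ (Fin k → ℚ)) :
    ∃ (m : ℕ) (w : Fin m → Fin k → ℝ), k - finrank ℚ V ≤ m ∧
      (∀ j, ∑ i, w j i ^ 2 = 1) ∧
      (∀ j, ∀ y ∈ V, ∑ i, w j i * ((y i : ℚ) : ℝ) = 0) ∧
      (∀ a : Fin k → ℝ, ∑ j, (∑ i, w j i * a i) ^ 2 ≤ ∑ i, a i ^ 2) := by
  classical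
  let b := Module.finBasis ℚ V
  let emb : (Fin k → ℚ) → EuclideanSpace ℝ (Fin k) := fun y =>
    WithLp.toLp 2 (fun i => ((y i : ℚ) : ℝ))
  let U : Submodule ℝ (EuclideanSpace ℝ (Fin k)) :=
    Submodule.span ℝ (Set.range fun j => emb (b j))
  have hU : finrank ℝ U ≤ finrank ℚ V := by
    have h := finrank_range_le_card (R := ℝ) (fun j => emb (b j))
    rw [Fintype.card_fin] at h
    exact h
  have hmem : ∀ y ∈ V, emb y ∈ U := by
    intro y hy
    have h1 : (∑ j, (b.repr ⟨y, hy⟩ j) • b j : V) = ⟨y, hy⟩ := b.sum_repr _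
    have h2 : ∀ i, y i = ∑ j, (b.repr ⟨y, hy⟩ j) * (b j : Fin k → ℚ) i := by
      intro i
      have h3 := congrFun (congrArg Subtype.val h1) i
      rw [Submodule.coe_sum, Finset.sum_apply] at h3
      simpa using h3.symm
    have h4 : emb y = ∑ j, ((b.repr ⟨y, hy⟩ j : ℚ) : ℝ) • emb (b j) := by
      ext i
      simp only [emb, WithLp.ofLp_sum, WithLp.ofLp_smul, Finset.sum_apply, Pi.smul_apply,
        smul_eq_mul]
      rw [h2 i]
      push_cast
      rfl
    rw [h4]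
    exact Submodule.sum_mem _ fun j _ => Submodule.smul_mem _ _ (Submodule.subset_span ⟨j, rfl⟩)
  have hdim : finrank ℝ U + finrank ℝ Uᗮ = k := by
    have := Submodule.finrank_add_finrank_orthogonal U
    simpa using this
  let o := stdOrthonormalBasis ℝ Uᗮ
  have hon : Orthonormal ℝ (fun j => (o j : EuclideanSpace ℝ (Fin k))) :=
    o.orthonormal.comp_linearIsometry Uᗮ.subtypeₗᵢ
  have hinner : ∀ (x y : EuclideanSpace ℝ (Fin k)), inner ℝ x y = ∑ i, x i * y i := by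
    intro x y
    rw [PiLp.inner_apply]
    refine sum_congr rfl fun i _ => ?_
    simp [mul_comm]
  refine ⟨finrank ℝ Uᗮ, fun j i => (o j : EuclideanSpace ℝ (Fin k)) i, by omega, ?_, ?_, ?_⟩
  · intro j
    have h1 := hon.1 j
    have h2 := real_inner_self_eq_norm_sq (o j : EuclideanSpace ℝ (Fin k))
    rw [h1, hinner] at h2
    simpa [sq] using h2
  · intro j y hy
    have h1 : inner ℝ (o j : EuclideanSpace ℝ (Fin k)) (emb y) = 0 :=
      Submodule.inner_left_of_mem_orthogonal (hmem y hy) (o j).2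
    rw [hinner] at h1
    exact h1
  · intro a
    have h1 := hon.sum_inner_products_le (x := (WithLp.toLp 2 a : EuclideanSpace ℝ (Fin k)))
      (s := univ)
    have h2 := real_inner_self_eq_norm_sq (WithLp.toLp 2 a : EuclideanSpace ℝ (Fin k))
    rw [← h2, hinner] at h1
    simp only [hinner, Real.norm_eq_abs, sq_abs] at h1
    simpa [sq] using h1

/-! ### calculus -/

section calculus

variable {κ : Type*} [Fintype κ] {k m : ℕ}

/-- the partition function -/
noncomputable def Zf (u : κ → Fin k → ℝ) (s : ℝ) : ℝ := ∑ ψ, ∏ i, (1 - s * u ψ i)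

/-- minus its derivative -/
noncomputable def Df (u : κ → Fin k → ℝ) (s : ℝ) : ℝ :=
  ∑ ψ, ∑ i, (∏ j ∈ univ.erase i, (1 - s * u ψ j)) * u ψ i

theorem hasDerivAt_Zf (u : κ → Fin k → ℝ) (s : ℝ) : HasDerivAt (Zf u) (-Df u s) s := by
  unfold Zf Df
  rw [← sum_neg_distrib]
  apply HasDerivAt.fun_sum
  intro ψ _
  have h1 : ∀ i ∈ (univ : Finset (Fin k)), HasDerivAt (fun s : ℝ => 1 - s * u ψ i) (-u ψ i) s := by
    intro i _
    have := ((hasDerivAt_id s).mul_const (u ψ i)).const_sub 1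
    simpa using this
  refine (HasDerivAt.fun_finsetProd h1).congr_deriv ?_
  rw [← sum_neg_distrib]
  refine sum_congr rfl fun i _ => ?_
  rw [smul_eq_mul]
  ring

theorem Zf_nonneg {u : κ → Fin k → ℝ} (hu2 : ∀ ψ i, u ψ i ≤ 2) {s : ℝ} (h0 : 0 ≤ s)
    (h1 : s ≤ 1 / 2) : 0 ≤ Zf u s :=
  sum_nonneg fun ψ _ => prod_nonneg fun i _ => by nlinarith [hu2 ψ i]

theorem Df_nonneg {u : κ → Fin k → ℝ} (hu0 : ∀ ψ i, 0 ≤ u ψ i) (hu2 : ∀ ψ i, u ψ i ≤ 2) {s : ℝ}
    (h0 : 0 ≤ s) (h1 : s ≤ 1 / 2) : 0 ≤ Df u s :=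
  sum_nonneg fun ψ _ => sum_nonneg fun i _ => mul_nonneg
    (prod_nonneg fun j _ => by nlinarith [hu2 ψ j]) (hu0 ψ i)

theorem growth_calc (u : κ → Fin k → ℝ) (hu0 : ∀ ψ i, 0 ≤ u ψ i) (hu2 : ∀ ψ i, u ψ i ≤ 2)
    (hA : ∀ s : ℝ, 0 < s → s ≤ 1 / 3 → (m : ℝ) * Zf u s ≤ (1 - s) * Df u s)
    (hB : ∀ s : ℝ, 1 / 3 ≤ s → s < 1 / 2 → (m : ℝ) * Zf u s ≤ (2 * s) * Df u s) :
    Zf u (1 / 2) ≤ (3 / 4 : ℝ) ^ m * Zf u (1 / 4) := by
  have hcont : Continuous (Zf u) := by
    unfold Zf; fun_prop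
  -- first piece
  have h1 : AntitoneOn (fun s => Zf u s * Real.exp (4 / 3 * m * s)) (Set.Icc (1 / 4) (1 / 3)) := by
    have hder : ∀ s, HasDerivAt (fun s => Zf u s * Real.exp (4 / 3 * m * s))
        (-Df u s * Real.exp (4 / 3 * m * s) + Zf u s * (Real.exp (4 / 3 * m * s) * (4 / 3 * m))) s := by
      intro s
      have e1 : HasDerivAt (fun s : ℝ => Real.exp (4 / 3 * m * s))
          (Real.exp (4 / 3 * m * s) * (4 / 3 * m)) s := by
        have := (((hasDerivAt_id s).const_mul (4 / 3 * (m : ℝ))).exp)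
        simpa using this
      exact (hasDerivAt_Zf u s).mul e1
    apply antitoneOn_of_deriv_nonpos (convex_Icc _ _)
    · exact (hcont.mul (by fun_prop)).continuousOn
    · intro s _
      exact (hder s).differentiableAt.differentiableWithinAt
    · intro s hs
      rw [interior_Icc] at hs
      rw [(hder s).deriv]
      have h2 := hA s (by linarith [hs.1]) (by linarith [hs.2])
      have h3 := Df_nonneg hu0 hu2 (s := s) (by linarith [hs.1]) (by linarith [hs.2])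
      have h4 : (m : ℝ) * Zf u s ≤ 3 / 4 * Df u s := by nlinarith [hs.1]
      have h5 := Real.exp_pos (4 / 3 * m * s)
      have h6 : -Df u s * Real.exp (4 / 3 * m * s) +
          Zf u s * (Real.exp (4 / 3 * m * s) * (4 / 3 * m)) =
          Real.exp (4 / 3 * m * s) * (4 / 3 * (m * Zf u s) - Df u s) := by ring
      rw [h6]
      exact mul_nonpos_of_nonneg_of_nonpos h5.le (by linarith)
  have h2 : AntitoneOn (fun s => Zf u s ^ 2 * s ^ m) (Set.Icc (1 / 3) (1 / 2)) := by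
    have hder : ∀ s, HasDerivAt (fun s => Zf u s ^ 2 * s ^ m)
        (((2 : ℕ) * Zf u s ^ (2 - 1) * (-Df u s)) * s ^ m + Zf u s ^ 2 * (m * s ^ (m - 1))) s := by
      intro s
      exact ((hasDerivAt_Zf u s).fun_pow 2).mul (hasDerivAt_pow m s)
    apply antitoneOn_of_deriv_nonpos (convex_Icc _ _)
    · exact ((hcont.pow 2).mul (by fun_prop)).continuousOn
    · intro s _
      exact (hder s).differentiableAt.differentiableWithinAt
    · intro s hs
      rw [interior_Icc] at hs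
      rw [(hder s).deriv]
      have hs0 : 0 < s := by linarith [hs.1]
      have h3 := hB s hs.1.le hs.2
      have h4 := Zf_nonneg hu2 (s := s) (by linarith [hs.1]) (by linarith [hs.2])
      have h5 : (m : ℝ) * s ^ (m - 1) * s = m * s ^ m := by
        rcases Nat.eq_zero_or_pos m with hm | hm
        · subst hm; simp
        · rw [mul_assoc, ← pow_succ, Nat.sub_add_cancel hm]
      have h6 : s * (((2 : ℕ) * Zf u s ^ (2 - 1) * (-Df u s)) * s ^ m +
          Zf u s ^ 2 * (m * s ^ (m - 1))) = s ^ m * Zf u s * (m * Zf u s - 2 * s * Df u s) := by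
        calc s * (((2 : ℕ) * Zf u s ^ (2 - 1) * (-Df u s)) * s ^ m +
            Zf u s ^ 2 * (m * s ^ (m - 1)))
            = s * (2 * Zf u s * (-Df u s)) * s ^ m + Zf u s ^ 2 * (m * s ^ (m - 1) * s) := by
              norm_num; ring
          _ = _ := by rw [h5]; ring
      have h7 : s * (((2 : ℕ) * Zf u s ^ (2 - 1) * (-Df u s)) * s ^ m +
          Zf u s ^ 2 * (m * s ^ (m - 1))) ≤ 0 := by
        rw [h6]
        exact mul_nonpos_of_nonneg_of_nonpos (by positivity) (by linarith)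
      by_contra hcon
      push Not at hcon
      have := mul_pos hs0 hcon
      linarith
  have h3 := h1 (a := 1 / 4) (b := 1 / 3) ⟨le_refl _, by norm_num⟩ ⟨by norm_num, le_refl _⟩
    (by norm_num)
  have h4 := h2 (a := 1 / 3) (b := 1 / 2) ⟨le_refl _, by norm_num⟩ ⟨by norm_num, le_refl _⟩
    (by norm_num)
  simp only at h3 h4
  have z2 := Zf_nonneg hu2 (s := 1 / 2) (by norm_num) (by norm_num)
  have z3 := Zf_nonneg hu2 (s := 1 / 3) (by norm_num) (by norm_num)
  have z4 := Zf_nonneg hu2 (s := 1 / 4) (by norm_num) (by norm_num)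
  -- first piece, numbers
  have h5 : Zf u (1 / 3) ≤ (9 / 10 : ℝ) ^ m * Zf u (1 / 4) := by
    have e1 : Real.exp (4 / 3 * m * (1 / 3)) =
        Real.exp (4 / 3 * m * (1 / 4)) * Real.exp (1 / 9) ^ m := by
      rw [← Real.exp_nat_mul, ← Real.exp_add]
      congr 1
      ring
    rw [e1] at h3
    have hpos := Real.exp_pos (4 / 3 * m * (1 / 4))
    have h6 : Zf u (1 / 3) * Real.exp (1 / 9) ^ m ≤ Zf u (1 / 4) := by
      have : Real.exp (4 / 3 * m * (1 / 4)) * (Zf u (1 / 3) * Real.exp (1 / 9) ^ m) ≤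
          Real.exp (4 / 3 * m * (1 / 4)) * Zf u (1 / 4) := by
        linarith
      exact le_of_mul_le_mul_left this hpos
    have h7 : (10 / 9 : ℝ) ^ m ≤ Real.exp (1 / 9) ^ m := by
      apply pow_le_pow_left₀ (by norm_num)
      have := Real.add_one_le_exp (1 / 9 : ℝ)
      linarith
    have h8 : Zf u (1 / 3) * (10 / 9 : ℝ) ^ m ≤ Zf u (1 / 4) :=
      (mul_le_mul_of_nonneg_left h7 z3).trans h6
    calc Zf u (1 / 3) = (9 / 10 : ℝ) ^ m * (Zf u (1 / 3) * (10 / 9 : ℝ) ^ m) := by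
          have : (9 / 10 : ℝ) ^ m * (10 / 9 : ℝ) ^ m = 1 := by
            rw [← mul_pow]; norm_num
          linear_combination (-Zf u (1 / 3)) * this
      _ ≤ _ := mul_le_mul_of_nonneg_left h8 (by positivity)
  have h6 : Zf u (1 / 2) ^ 2 ≤ (2 / 3 : ℝ) ^ m * Zf u (1 / 3) ^ 2 := by
    have e1 : (1 / 3 : ℝ) ^ m = (2 / 3 : ℝ) ^ m * (1 / 2 : ℝ) ^ m := by
      rw [← mul_pow]; norm_num
    rw [e1] at h4
    have hp : (0 : ℝ) < (1 / 2 : ℝ) ^ m := by positivity
    have : (1 / 2 : ℝ) ^ m * Zf u (1 / 2) ^ 2 ≤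
        (1 / 2 : ℝ) ^ m * ((2 / 3 : ℝ) ^ m * Zf u (1 / 3) ^ 2) := by linarith
    exact le_of_mul_le_mul_left this hp
  have h7 : Zf u (1 / 2) ^ 2 ≤ ((3 / 4 : ℝ) ^ m * Zf u (1 / 4)) ^ 2 := by
    calc Zf u (1 / 2) ^ 2 ≤ (2 / 3 : ℝ) ^ m * Zf u (1 / 3) ^ 2 := h6
      _ ≤ (2 / 3 : ℝ) ^ m * ((9 / 10 : ℝ) ^ m * Zf u (1 / 4)) ^ 2 := by
          apply mul_le_mul_of_nonneg_left _ (by positivity)
          exact pow_le_pow_left₀ z3 h5 2
      _ = ((2 / 3 : ℝ) * (81 / 100)) ^ m * Zf u (1 / 4) ^ 2 := by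
          have : ((9 / 10 : ℝ) ^ m) ^ 2 = (81 / 100 : ℝ) ^ m := by
            rw [← pow_mul, mul_comm, pow_mul]; norm_num
          rw [mul_pow, this, mul_pow]; ring
      _ ≤ (9 / 16 : ℝ) ^ m * Zf u (1 / 4) ^ 2 := by
          apply mul_le_mul_of_nonneg_right _ (by positivity)
          exact pow_le_pow_left₀ (by norm_num) (by norm_num) m
      _ = ((3 / 4 : ℝ) ^ m * Zf u (1 / 4)) ^ 2 := by
          have : ((3 / 4 : ℝ) ^ m) ^ 2 = (9 / 16 : ℝ) ^ m := by
            rw [← pow_mul, mul_comm, pow_mul]; norm_num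
          rw [mul_pow, this]
  exact le_of_pow_le_pow_left₀ (by norm_num) (by positivity) h7

end calculus

end Vale.Agent.P160.RD.Growth304
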