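import Mathlib

/-! # P160/RD: Odlyzko's lemma for an arbitrary entry law (rational subspaces). -/

open Finset Module Submodule

namespace Vale.Agent.P160.RD

noncomputable section

open scoped Classical

/-- a rational subspace is determined by `dim U` coordinates -/
lemma exists_inj_coords {k : ℕ} (U : Submodule ℚ (Fin k → ℚ)) :
    ∃ I : Finset (Fin k), I.card ≤ finrank ℚ U ∧
      ∀ u ∈ U, (∀ i ∈ I, u i = 0) → u = 0 := by
  let φ : Fin k → Dual ℚ U := fun i => (LinearMap.proj i).comp U.subtype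
  obtain ⟨b, -, -, hspan, hb⟩ := exists_linearIndepOn_extension
    (linearIndepOn_empty ℚ φ) (Set.empty_subset (Set.univ : Set (Fin k)))
  refine ⟨b.toFinset, ?_, ?_⟩
  · have h1 := hb.fintype_card_le_finrank
    rw [Subspace.dual_finrank_eq] at h1
    rwa [Set.toFinset_card]
  · intro u hu h0
    have h2 : ∀ ψ ∈ span ℚ (φ '' b), ψ ⟨u, hu⟩ = 0 := by
      intro ψ hψ
      induction hψ using Submodule.span_induction with
      | mem x hx =>
        obtain ⟨i, hi, rfl⟩ := hx
        exact h0 i (Set.mem_toFinset.2 hi)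
      | zero => rfl
      | add x y _ _ hx hy => rw [LinearMap.add_apply, hx, hy, add_zero]
      | smul c x _ hx => rw [LinearMap.smul_apply, hx, smul_zero]
    funext i
    exact h2 (φ i) (hspan ⟨i, Set.mem_univ i, rfl⟩)

/-- **Odlyzko**: entry law `w` on `A` (values `val`), atoms `≤ a ≤ 1`. -/
theorem odlyzko {A : Type*} [Fintype A] [DecidableEq A] {k : ℕ} (w : A → ℝ) (val : A → ℚ)
    (hval : Function.Injective val) (hw : ∀ x, 0 ≤ w x) (sw : ∑ x, w x = 1) {a : ℝ}
    (ha : ∀ x, w x ≤ a) (ha1 : a ≤ 1) (U : Submodule ℚ (Fin k → ℚ)) :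
    (∑ x : Fin k → A, if (fun i => val (x i)) ∈ U then ∏ i, w (x i) else 0) ≤
      a ^ (k - finrank ℚ U) := by
  have hA : Nonempty A := by
    by_contra h
    rw [not_nonempty_iff] at h
    simp at sw
  have ha0 : 0 ≤ a := (hw (Classical.arbitrary A)).trans (ha _)
  obtain ⟨I, hI, hinj⟩ := exists_inj_coords U
  have hsum : ∀ (ι : Type) [Fintype ι] [DecidableEq ι],
      ∑ x : ι → A, ∏ i, w (x i) = 1 := by
    intro ι _ _
    have h := Finset.prod_univ_sum (fun _ : ι => (univ : Finset A)) (fun _ x => w x)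
    rw [Fintype.piFinset_univ] at h
    rw [← h]; simp [sw]
  rw [← (Equiv.piEquivPiSubtypeProd (fun i => i ∈ I) (fun _ => A)).symm.sum_comp,
    Fintype.sum_prod_type]
  have key : ∀ Z : {i // i ∈ I} → A,
      (∑ Z' : {i // ¬ i ∈ I} → A,
        if (fun i => val ((Equiv.piEquivPiSubtypeProd (fun i => i ∈ I) (fun _ => A)).symm
          (Z, Z') i)) ∈ U
        then ∏ i, w ((Equiv.piEquivPiSubtypeProd (fun i => i ∈ I) (fun _ => A)).symm (Z, Z') i)
        else 0) ≤ (∏ i, w (Z i)) * a ^ (k - I.card) := by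
    intro Z
    have hprod : ∀ Z' : {i // ¬ i ∈ I} → A,
        ∏ i, w ((Equiv.piEquivPiSubtypeProd (fun i => i ∈ I) (fun _ => A)).symm (Z, Z') i) =
        (∏ i, w (Z i)) * ∏ i, w (Z' i) := by
      intro Z'
      set X : Fin k → A :=
        (Equiv.piEquivPiSubtypeProd (fun i => i ∈ I) (fun _ => A)).symm (Z, Z') with hX
      have hX1 : ∀ i : {i // i ∈ I}, X i = Z i := by
        intro i; simp [hX, Equiv.piEquivPiSubtypeProd, i.2]
      have hX2 : ∀ i : {i // ¬ i ∈ I}, X i = Z' i := by
        intro i; simp [hX, Equiv.piEquivPiSubtypeProd, i.2]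
      rw [← Fintype.prod_subtype_mul_prod_subtype (fun i => i ∈ I) (fun i => w (X i))]
      congr 1
      · exact Finset.prod_congr (Finset.ext fun _ => by simp) fun i _ => by rw [hX1]
      · exact Finset.prod_congr (Finset.ext fun _ => by simp) fun i _ => by rw [hX2]
    by_cases hex : ∃ Z0 : {i // ¬ i ∈ I} → A,
        (fun i => val ((Equiv.piEquivPiSubtypeProd (fun i => i ∈ I) (fun _ => A)).symm
          (Z, Z0) i)) ∈ U
    · obtain ⟨Z0, hZ0⟩ := hex
      have huniq : ∀ Z' : {i // ¬ i ∈ I} → A,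
          (fun i => val ((Equiv.piEquivPiSubtypeProd (fun i => i ∈ I) (fun _ => A)).symm
            (Z, Z') i)) ∈ U → Z' = Z0 := by
        intro Z' hZ'
        have hsub := U.sub_mem hZ' hZ0
        have h0 := hinj _ hsub (fun i hi => by
          simp [Equiv.piEquivPiSubtypeProd, hi])
        funext i
        have h1 := congrFun h0 i
        simp only [Pi.sub_apply, Pi.zero_apply, sub_eq_zero] at h1
        have h2 := hval h1
        simpa [Equiv.piEquivPiSubtypeProd, i.2] using h2
      rw [Finset.sum_eq_single Z0]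
      · rw [if_pos hZ0, hprod]
        refine mul_le_mul_of_nonneg_left ?_ (Finset.prod_nonneg fun i _ => hw _)
        calc ∏ i, w (Z0 i) ≤ ∏ _i : {i // ¬ i ∈ I}, a :=
              Finset.prod_le_prod (fun i _ => hw _) (fun i _ => ha _)
          _ = a ^ (k - I.card) := by
              rw [Finset.prod_const, Finset.card_univ, Fintype.card_subtype_compl]; simp
      · intro Z' _ hne
        exact if_neg fun h => hne (huniq Z' h)
      · intro h; exact absurd (Finset.mem_univ _) h
    · push Not at hex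
      rw [Finset.sum_eq_zero (fun Z' _ => if_neg (hex Z'))]
      exact mul_nonneg (Finset.prod_nonneg fun i _ => hw _) (pow_nonneg ha0 _)
  calc _ ≤ ∑ Z : {i // i ∈ I} → A, (∏ i, w (Z i)) * a ^ (k - I.card) :=
        Finset.sum_le_sum fun Z _ => key Z
    _ = a ^ (k - I.card) := by rw [← Finset.sum_mul, hsum, one_mul]
    _ ≤ a ^ (k - finrank ℚ U) := pow_le_pow_of_le_one ha0 ha1 (by omega)

end

end Vale.Agent.P160.RD
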