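import Vale.Agent.P160.RD.Rank

/-! # P160/RD: exchange theorem with a general Odlyzko constant `a`. -/

open Finset Module Submodule

namespace Vale.Agent.P160.RD.Gen

open Vale.Agent.P160.RD

noncomputable section

open scoped Classical

variable {Om : Type*} [Fintype Om] {k : ℕ}

lemma Bv_succ {a : ℝ} {v : Om → ℝ} (hv : ∀ x, 0 ≤ v x) {vec : Om → (Fin k → ℚ)}
    (hO : ∀ U : Submodule ℚ (Fin k → ℚ), ms v vec U ≤ a ^ (k - finrank ℚ U))
    (V : Submodule ℚ (Fin k → ℚ)) (j : ℕ) :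
    Bv v vec V j * (ms v vec V - a ^ (k - j)) ≤ Bv v vec V (j + 1) := by
  have e : Bv v vec V (j + 1) = ∑ Y : Fin j → Om,
      (if (∀ i, vec (Y i) ∈ V) ∧ LinearIndependent ℚ (fun i => vec (Y i)) then wt v Y else 0) *
      ∑ y : Om, (if vec y ∈ V ∧ vec y ∉ span ℚ (Set.range fun i => vec (Y i))
        then v y else 0) := by
    unfold Bv
    rw [← (Fin.consEquiv (fun _ : Fin (j + 1) => Om)).sum_comp, Fintype.sum_prod_type_right]
    refine Finset.sum_congr rfl fun Y _ => ?_
    rw [Finset.mul_sum]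
    refine Finset.sum_congr rfl fun y _ => ?_
    have h1 : (fun i : Fin (j + 1) => vec ((Fin.consEquiv fun _ => Om) (y, Y) i)) =
        Fin.cons (vec y) (fun i => vec (Y i)) := by
      funext i
      refine Fin.cases ?_ (fun i => ?_) i <;> simp [Fin.consEquiv]
    have h2 : (∀ i : Fin (j + 1), vec ((Fin.consEquiv fun _ => Om) (y, Y) i) ∈ V) ↔
        (vec y ∈ V ∧ ∀ i, vec (Y i) ∈ V) := by
      rw [Fin.forall_fin_succ]; simp [Fin.consEquiv]
    have h3 : wt v ((Fin.consEquiv fun _ : Fin (j + 1) => Om) (y, Y)) = v y * wt v Y := by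
      simp [wt, Fin.prod_univ_succ, Fin.consEquiv]
    simp only [h1, h2, linearIndependent_finCons, h3]
    by_cases c1 : vec y ∈ V <;> by_cases c2 : ∀ i, vec (Y i) ∈ V <;>
      by_cases c3 : LinearIndependent ℚ (fun i => vec (Y i)) <;>
      by_cases c4 : vec y ∈ span ℚ (Set.range fun i => vec (Y i)) <;>
      simp [c1, c2, c3, c4, mul_comm]
  rw [e]
  conv_lhs => unfold Bv
  rw [Finset.sum_mul]
  refine Finset.sum_le_sum fun Y _ => ?_
  by_cases hY : (∀ i, vec (Y i) ∈ V) ∧ LinearIndependent ℚ (fun i => vec (Y i))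
  · rw [if_pos hY]
    refine mul_le_mul_of_nonneg_left ?_ (wt_nonneg hv Y)
    have hfr : finrank ℚ (span ℚ (Set.range fun i => vec (Y i))) = j := by
      rw [finrank_span_eq_card hY.2]; simp
    have h4 := hO (span ℚ (Set.range fun i => vec (Y i)))
    rw [hfr] at h4
    have h5 : ms v vec V - ms v vec (span ℚ (Set.range fun i => vec (Y i))) ≤
        ∑ y : Om, (if vec y ∈ V ∧ vec y ∉ span ℚ (Set.range fun i => vec (Y i))
          then v y else 0) := by
      unfold ms
      rw [← Finset.sum_sub_distrib]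
      refine Finset.sum_le_sum fun y _ => ?_
      have := hv y
      by_cases c1 : vec y ∈ V <;>
        by_cases c4 : vec y ∈ span ℚ (Set.range fun i => vec (Y i)) <;> simp [c1, c4, this]
    linarith
  · rw [if_neg hY]; simp

lemma Bv_lower {a : ℝ} (ha0 : 0 < a) (ha1 : a ≤ 1) {v : Om → ℝ} (hv : ∀ x, 0 ≤ v x) {vec : Om → (Fin k → ℚ)}
    (hO : ∀ U : Submodule ℚ (Fin k → ℚ), ms v vec U ≤ a ^ (k - finrank ℚ U))
    (V : Submodule ℚ (Fin k → ℚ)) {m : ℕ} (hm : a ^ (k - m) ≤ ms v vec V / 2) :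
    ∀ j ≤ m, (ms v vec V / 2) ^ j ≤ Bv v vec V j := by
  intro j
  induction j with
  | zero => intro _; simp [Bv_zero]
  | succ j ih =>
    intro hj
    have h0 : 0 ≤ ms v vec V / 2 := div_nonneg (ms_nonneg hv _ _) (by norm_num)
    have h1 : a ^ (k - j) ≤ a ^ (k - m) :=
      pow_le_pow_of_le_one ha0.le ha1 (by omega)
    have h2 : ms v vec V / 2 ≤ ms v vec V - a ^ (k - j) := by linarith
    calc (ms v vec V / 2) ^ (j + 1) = (ms v vec V / 2) ^ j * (ms v vec V / 2) := pow_succ _ _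
      _ ≤ Bv v vec V j * (ms v vec V - a ^ (k - j)) := by
          refine mul_le_mul (ih (by omega)) h2 h0 ((pow_nonneg h0 j).trans (ih (by omega)))
      _ ≤ _ := Bv_succ hv hO V j

/-- bound for one subspace with `m` swapped rows -/
lemma Av_le {a : ℝ} (ha0 : 0 < a) (ha1 : a ≤ 1) {u v : Om → ℝ} (hu : ∀ x, 0 ≤ u x) (hv : ∀ x, 0 ≤ v x)
    {vec : Om → (Fin k → ℚ)} {t : ℝ} (hat : a ≤ t) (ht0 : 1 / 2 ≤ t) (ht1 : t ≤ 1)
    (hO : ∀ U : Submodule ℚ (Fin k → ℚ), ms v vec U ≤ a ^ (k - finrank ℚ U))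
    (hS : ∀ U : Submodule ℚ (Fin k → ℚ),
      ms u vec U ≤ t ^ (k - finrank ℚ U) * ms v vec U)
    (V : Submodule ℚ (Fin k → ℚ)) {r m : ℕ} (hrk : r ≤ k) (hV : finrank ℚ V = k - r)
    (hmk : m < k) (hm : m = 0 ∨ a ^ (k - m) ≤ ms v vec V / 2)
    (hm' : ms v vec V / 2 < a ^ (k - (m + 1))) (hmr : m + r ≤ k) :
    Av u vec V ≤ (2 ^ (m + 2 * r) * t ^ (r * k)) * ∑ J : Finset (Fin k), Ev u v vec m J V := by
  set F := ms v vec V with hF
  set f := ms u vec V with hf
  have hF0 : 0 ≤ F := ms_nonneg hv _ _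
  have hf0 : 0 ≤ f := ms_nonneg hu _ _
  have ht : 0 < t := by linarith
  have hfF : f ≤ t ^ r * F := by
    have := hS V
    rw [hV] at this
    have e : k - (k - r) = r := by omega
    rwa [e] at this
  have hE0 : ∀ J, 0 ≤ Ev u v vec m J V := fun J => Finset.sum_nonneg fun Y _ =>
    Finset.sum_nonneg fun Z _ => by
      split_ifs
      · exact mul_nonneg (wt_nonneg hv Y) (wt_nonneg hu Z)
      · exact le_rfl
  have hB : (F / 2) ^ m ≤ Bv v vec V m := by
    rcases hm with h | h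
    · subst h; simp [Bv_zero]
    · exact Bv_lower ha0 ha1 hv hO V h m le_rfl
  have hBpos : 0 < (F / 2) ^ m := by
    rcases hm with h | h
    · subst h; simp
    · have : 0 < F / 2 := lt_of_lt_of_le (by positivity) h
      positivity
  have hA0 : 0 ≤ Av u vec V := Finset.sum_nonneg fun X _ => by
    split_ifs
    · exact wt_nonneg hu X
    · exact le_rfl
  have h1 := Av_mul_Bv hu hv vec V m
  have h2 : (∑ J : Finset (Fin k), if m + J.card = finrank ℚ V then
        Ev u v vec m J V * (ms u vec V) ^ (k - J.card) else 0) ≤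
      f ^ (r + m) * ∑ J : Finset (Fin k), Ev u v vec m J V := by
    rw [Finset.mul_sum]
    refine Finset.sum_le_sum fun J _ => ?_
    split_ifs with c
    · rw [hV] at c
      have : k - J.card = r + m := by omega
      rw [this, mul_comm]
    · exact mul_nonneg (pow_nonneg hf0 _) (hE0 J)
  set S := ∑ J : Finset (Fin k), Ev u v vec m J V with hSdef
  have hS0 : 0 ≤ S := Finset.sum_nonneg fun J _ => hE0 J
  have h3 : Av u vec V * (F / 2) ^ m ≤ f ^ (r + m) * S :=
    (mul_le_mul_of_nonneg_left hB hA0).trans (h1.trans h2)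
  -- the numbers
  have h4 : f ^ (r + m) ≤ (2 ^ (m + 2 * r) * t ^ (r * k)) * (F / 2) ^ m := by
    have a1 : f ^ m ≤ t ^ (r * m) * F ^ m := by
      calc f ^ m ≤ (t ^ r * F) ^ m := pow_le_pow_left₀ hf0 hfF m
        _ = _ := by rw [mul_pow, ← pow_mul]
    have a2 : f ≤ F := hfF.trans (by
      have := pow_le_one₀ ht.le ht1 (n := r)
      nlinarith)
    have a3 : F ≤ 4 * t ^ (k - m) := by
      have b1 : a ^ (k - (m + 1)) ≤ t ^ (k - (m + 1)) :=
        pow_le_pow_left₀ ha0.le hat _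
      have b2 : t ^ (k - m) = t ^ (k - (m + 1)) * t := by
        rw [← pow_succ]; congr 1; omega
      have b3 : 0 < t ^ (k - (m + 1)) := by positivity
      rw [b2]
      nlinarith
    have a4 : f ^ r ≤ 4 ^ r * t ^ (r * (k - m)) := by
      calc f ^ r ≤ (4 * t ^ (k - m)) ^ r := pow_le_pow_left₀ hf0 (a2.trans a3) r
        _ = _ := by rw [mul_pow, ← pow_mul, mul_comm (k - m) r]
    calc f ^ (r + m) = f ^ r * f ^ m := pow_add _ _ _
      _ ≤ (4 ^ r * t ^ (r * (k - m))) * (t ^ (r * m) * F ^ m) :=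
          mul_le_mul a4 a1 (pow_nonneg hf0 _) (by positivity)
      _ = (2 ^ (m + 2 * r) * t ^ (r * k)) * (F / 2) ^ m := by
          have c1 : r * k = r * (k - m) + r * m := by
            rw [← mul_add]; congr 1; omega
          rw [c1, pow_add t, pow_add 2, pow_mul 2, div_pow]
          have : (2 : ℝ) ^ 2 = 4 := by norm_num
          rw [this]
          field_simp
  have h5 : Av u vec V * (F / 2) ^ m ≤
      ((2 ^ (m + 2 * r) * t ^ (r * k)) * S) * (F / 2) ^ m := by
    refine h3.trans ((mul_le_mul_of_nonneg_right h4 hS0).trans (le_of_eq ?_)); ring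
  exact le_of_mul_le_mul_right h5 hBpos

/-- **Abstract exchange theorem for rational rank deficiency.** -/
theorem rank_swap_gen {a : ℝ} (ha0 : 0 < a) (ha1 : a ≤ 1) {u v : Om → ℝ} (hu : ∀ x, 0 ≤ u x) (hv : ∀ x, 0 ≤ v x)
    (su : ∑ x, u x = 1) (sv : ∑ x, v x = 1)
    {vec : Om → (Fin k → ℚ)} {t : ℝ} (hat : a ≤ t) (ht0 : 1 / 2 ≤ t) (ht1 : t ≤ 1)
    (hO : ∀ U : Submodule ℚ (Fin k → ℚ), ms v vec U ≤ a ^ (k - finrank ℚ U))
    (hS : ∀ U : Submodule ℚ (Fin k → ℚ),
      ms u vec U ≤ t ^ (k - finrank ℚ U) * ms v vec U)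
    {r : ℕ} (hr : 1 ≤ r) (hrk : r ≤ k) :
    (∑ X : Fin k → Om, if finrank ℚ (span ℚ (Set.range fun i => vec (X i))) = k - r
      then wt u X else 0) ≤ k * (2 : ℝ) ^ (2 * k + 2 * r) * t ^ (r * k) := by
  have ht : 0 < t := by linarith
  set 𝒱 : Finset (Submodule ℚ (Fin k → ℚ)) :=
    ((univ : Finset (Fin k → Om)).image
      (fun X => span ℚ (Set.range fun i => vec (X i)))).filter
      (fun V => finrank ℚ V = k - r) with h𝒱
  have e1 : (∑ X : Fin k → Om, if finrank ℚ (span ℚ (Set.range fun i => vec (X i))) = k - r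
      then wt u X else 0) = ∑ V ∈ 𝒱, Av u vec V := by
    unfold Av
    rw [Finset.sum_comm]
    refine Finset.sum_congr rfl fun X _ => ?_
    rw [Finset.sum_ite_eq]
    by_cases c : finrank ℚ (span ℚ (Set.range fun i => vec (X i))) = k - r
    · rw [if_pos c, if_pos]
      rw [h𝒱, Finset.mem_filter]
      exact ⟨Finset.mem_image_of_mem _ (Finset.mem_univ X), c⟩
    · rw [if_neg c, if_neg]
      rw [h𝒱, Finset.mem_filter]
      exact fun h => c h.2
  rw [e1]
  let mm : Submodule ℚ (Fin k → ℚ) → ℕ := fun V =>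
    Nat.findGreatest (fun m => a ^ (k - m) ≤ ms v vec V / 2) (k - 1)
  have hmm : ∀ V ∈ 𝒱, Av u vec V ≤
      (2 ^ (mm V + 2 * r) * t ^ (r * k)) * ∑ J : Finset (Fin k), Ev u v vec (mm V) J V := by
    intro V hV
    have hfr : finrank ℚ V = k - r := (Finset.mem_filter.1 hV).2
    have hlt : mm V < k := by
      have : mm V ≤ k - 1 := Nat.findGreatest_le _
      omega
    have hFr : ms v vec V ≤ a ^ r := by
      have := hO V
      rw [hfr] at this
      have e : k - (k - r) = r := by omega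
      rwa [e] at this
    have hor : mm V = 0 ∨ a ^ (k - mm V) ≤ ms v vec V / 2 := by
      by_cases h : mm V = 0
      · exact Or.inl h
      · exact Or.inr (Nat.findGreatest_of_ne_zero (P := fun m =>
          a ^ (k - m) ≤ ms v vec V / 2) (n := k - 1) rfl h)
    refine Av_le ha0 ha1 hu hv hat ht0 ht1 hO hS V hrk hfr hlt hor ?_ ?_
    · by_cases h : mm V + 1 ≤ k - 1
      · have := Nat.findGreatest_is_greatest (P := fun m =>
          a ^ (k - m) ≤ ms v vec V / 2) (n := k - 1) (k := mm V + 1)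
          (Nat.lt_succ_self _) h
        exact not_le.1 this
      · have e : k - (mm V + 1) = 0 := by omega
        rw [e, pow_zero]
        have : a ^ r ≤ 1 := pow_le_one₀ ha0.le ha1
        linarith
    · rcases hor with h | h
      · rw [h]; omega
      · by_contra hc
        have h1 : a ^ r ≤ a ^ (k - mm V) :=
          pow_le_pow_of_le_one ha0.le ha1 (by omega)
        have h2 : (0 : ℝ) < a ^ r := by positivity
        linarith
  have hE0 : ∀ m J V, 0 ≤ Ev u v vec m J V := fun m J V => Finset.sum_nonneg fun Y _ =>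
    Finset.sum_nonneg fun Z _ => by
      split_ifs
      · exact mul_nonneg (wt_nonneg hv Y) (wt_nonneg hu Z)
      · exact le_rfl
  have hrange : ∀ V ∈ 𝒱, mm V ∈ Finset.range k := by
    intro V _
    have : mm V ≤ k - 1 := Nat.findGreatest_le _
    rw [Finset.mem_range]; omega
  calc ∑ V ∈ 𝒱, Av u vec V
      ≤ ∑ V ∈ 𝒱, ∑ m ∈ Finset.range k, if mm V = m then
          (2 ^ (m + 2 * r) * t ^ (r * k)) * ∑ J : Finset (Fin k), Ev u v vec m J V else 0 := by
        refine Finset.sum_le_sum fun V hV => ?_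
        rw [Finset.sum_ite_eq, if_pos (hrange V hV)]
        exact hmm V hV
    _ = ∑ m ∈ Finset.range k, ∑ V ∈ 𝒱, if mm V = m then
          (2 ^ (m + 2 * r) * t ^ (r * k)) * ∑ J : Finset (Fin k), Ev u v vec m J V else 0 :=
        Finset.sum_comm
    _ ≤ ∑ m ∈ Finset.range k, (2 ^ (k + 2 * r) * t ^ (r * k)) * (2 : ℝ) ^ k := by
        refine Finset.sum_le_sum fun m hm => ?_
        rw [Finset.mem_range] at hm
        have h1 : (∑ V ∈ 𝒱, if mm V = m then
          (2 ^ (m + 2 * r) * t ^ (r * k)) * ∑ J : Finset (Fin k), Ev u v vec m J V else 0) ≤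
          (2 ^ (m + 2 * r) * t ^ (r * k)) *
            ∑ J : Finset (Fin k), ∑ V ∈ 𝒱, Ev u v vec m J V := by
          rw [Finset.sum_comm (s := (univ : Finset (Finset (Fin k)))), Finset.mul_sum]
          refine Finset.sum_le_sum fun V _ => ?_
          split_ifs
          · exact le_rfl
          · exact mul_nonneg (by positivity) (Finset.sum_nonneg fun J _ => hE0 m J V)
        refine h1.trans ?_
        have h2 : (∑ J : Finset (Fin k), ∑ V ∈ 𝒱, Ev u v vec m J V) ≤ (2 : ℝ) ^ k := by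
          calc _ ≤ ∑ _J : Finset (Fin k), (1 : ℝ) :=
                Finset.sum_le_sum fun J _ => sum_Ev_le hu hv su sv vec m J 𝒱
            _ = 2 ^ k := by simp
        have h3 : (2 : ℝ) ^ (m + 2 * r) ≤ 2 ^ (k + 2 * r) :=
          pow_le_pow_right₀ (by norm_num) (by omega)
        have h4 : 0 ≤ ∑ J : Finset (Fin k), ∑ V ∈ 𝒱, Ev u v vec m J V :=
          Finset.sum_nonneg fun J _ => Finset.sum_nonneg fun V _ => hE0 m J V
        exact mul_le_mul (mul_le_mul_of_nonneg_right h3 (by positivity)) h2 h4 (by positivity)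
    _ = k * (2 : ℝ) ^ (2 * k + 2 * r) * t ^ (r * k) := by
        rw [Finset.sum_const, Finset.card_range, nsmul_eq_mul]
        have : (2 : ℝ) ^ (2 * k + 2 * r) = 2 ^ (k + 2 * r) * 2 ^ k := by
          rw [← pow_add]; congr 1; ring
        rw [this]; ring

end

end Vale.Agent.P160.RD.Gen
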