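import Mathlib
import Vale.Agent.P160.Half.WCount

/-!
# P160, block (M), leaf M/RQ, part (1): swap lemma for rational subspaces

Law `w4 = (1/2, 1/4, 1/4)` and law `w8 = (3/4, 1/8, 1/8)` of `0, 1, -1`.
-/

namespace Vale.Agent.P160.RD.Swap304

open Finset Module

/-- the three values -/
def val (b : Fin 3) : ℤ := if b = 0 then 0 else if b = 1 then 1 else -1

/-- law (1/2,1/4,1/4) -/
noncomputable def w4 (b : Fin 3) : ℝ := if b = 0 then 1 / 2 else 1 / 4

/-- law (3/4,1/8,1/8) -/
noncomputable def w8 (b : Fin 3) : ℝ := if b = 0 then 3 / 4 else 1 / 8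

/-- integer vector of a seed vector -/
def zvec {k : ℕ} (x : Fin k → Fin 3) : Fin k → ℤ := fun i => val (x i)

/-- rational vector of a seed vector -/
def vec {k : ℕ} (x : Fin k → Fin 3) : Fin k → ℚ := fun i => ((val (x i) : ℤ) : ℚ)

/-- product weight, law (1/2,1/4,1/4) -/
noncomputable def u {k : ℕ} (x : Fin k → Fin 3) : ℝ := ∏ i, w4 (x i)

/-- product weight, law (3/4,1/8,1/8) -/
noncomputable def v {k : ℕ} (x : Fin k → Fin 3) : ℝ := ∏ i, w8 (x i)

theorem w4_pos (b : Fin 3) : 0 < w4 b := by unfold w4; split_ifs <;> norm_num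
theorem w8_pos (b : Fin 3) : 0 < w8 b := by unfold w8; split_ifs <;> norm_num
theorem w8_le (b : Fin 3) : w8 b ≤ 3 / 4 := by unfold w8; split_ifs <;> norm_num

theorem sum_w4 : ∑ b, w4 b = 1 := by
  rw [Fin.sum_univ_three]; simp [w4]; norm_num
theorem sum_w8 : ∑ b, w8 b = 1 := by
  rw [Fin.sum_univ_three]; simp [w8]; norm_num

theorem val_inj {a b : Fin 3} (h : val a = val b) : a = b := by
  revert a b; decide

theorem u_nonneg {k : ℕ} (x : Fin k → Fin 3) : 0 ≤ u x := prod_nonneg fun i _ => (w4_pos _).le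
theorem v_nonneg {k : ℕ} (x : Fin k → Fin 3) : 0 ≤ v x := prod_nonneg fun i _ => (w8_pos _).le

theorem sum_u (k : ℕ) : ∑ x : Fin k → Fin 3, u x = 1 := by
  have h := Finset.prod_univ_sum (fun _ : Fin k => (univ : Finset (Fin 3))) (fun _ b => w4 b)
  rw [Fintype.piFinset_univ] at h
  unfold u
  rw [← h]
  simp [sum_w4]

theorem sum_v (k : ℕ) : ∑ x : Fin k → Fin 3, v x = 1 := by
  have h := Finset.prod_univ_sum (fun _ : Fin k => (univ : Finset (Fin 3))) (fun _ b => w8 b)
  rw [Fintype.piFinset_univ] at h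
  unfold v
  rw [← h]
  simp [sum_w8]

/-! ### Odlyzko -/

open Classical in
theorem odlyzko {k : ℕ} (V : Submodule ℚ (Fin k → ℚ)) :
    ∑ x : Fin k → Fin 3 with vec x ∈ V, v x ≤ (3 / 4 : ℝ) ^ (k - finrank ℚ V) := by
  obtain ⟨I, hcard, hinj, -⟩ := Vale.Agent.P160.Half.exists_info V
  set S : Finset (Fin k → Fin 3) := univ.filter fun x => vec x ∈ V
  have h1 : ∀ x : Fin k → Fin 3, v x ≤ (3 / 4 : ℝ) ^ (k - finrank ℚ V) * ∏ i : I, w8 (x i) := by
    intro x
    unfold v
    rw [← Finset.prod_mul_prod_compl I (fun i => w8 (x i)), mul_comm]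
    have e1 : ∏ i : I, w8 (x i) = ∏ i ∈ I, w8 (x i) := Finset.prod_coe_sort I (fun i => w8 (x i))
    rw [e1]
    refine mul_le_mul_of_nonneg_right ?_ (prod_nonneg fun i _ => (w8_pos _).le)
    calc ∏ i ∈ Iᶜ, w8 (x i) ≤ ∏ i ∈ Iᶜ, (3 / 4 : ℝ) :=
          prod_le_prod (fun i _ => (w8_pos _).le) fun i _ => w8_le _
      _ = (3 / 4 : ℝ) ^ (k - finrank ℚ V) := by
          rw [prod_const, card_compl, Fintype.card_fin, hcard]
  have h2 : ∑ x ∈ S, ∏ i : I, w8 (x i) ≤ 1 := by
    have hi : Set.InjOn (fun (x : Fin k → Fin 3) (i : I) => x i) (S : Set (Fin k → Fin 3)) := by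
      intro x hx y hy hxy
      have hx' : vec x ∈ V := (mem_filter.1 (mem_coe.1 hx)).2
      have hy' : vec y ∈ V := (mem_filter.1 (mem_coe.1 hy)).2
      have h0 : vec x - vec y = 0 := by
        apply hinj _ (V.sub_mem hx' hy')
        intro i hi
        have : x i = y i := congrFun hxy ⟨i, hi⟩
        simp [vec, this]
      funext i
      have h3 := congrFun h0 i
      simp only [vec, Pi.sub_apply, Pi.zero_apply, sub_eq_zero] at h3
      exact val_inj (by exact_mod_cast h3)
    have e2 := Finset.sum_image (f := fun y : I → Fin 3 => ∏ i, w8 (y i)) hi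
    rw [← e2]
    calc ∑ y ∈ S.image (fun (x : Fin k → Fin 3) (i : I) => x i), ∏ i, w8 (y i)
        ≤ ∑ y : I → Fin 3, ∏ i, w8 (y i) :=
          sum_le_sum_of_subset_of_nonneg (subset_univ _) fun y _ _ =>
            prod_nonneg fun i _ => (w8_pos _).le
      _ = 1 := by
          have h := Finset.prod_univ_sum (fun _ : I => (univ : Finset (Fin 3))) (fun _ b => w8 b)
          rw [Fintype.piFinset_univ] at h
          rw [← h]
          simp [sum_w8]
  calc ∑ x ∈ S, v x ≤ ∑ x ∈ S, (3 / 4 : ℝ) ^ (k - finrank ℚ V) * ∏ i : I, w8 (x i) :=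
        sum_le_sum fun x _ => h1 x
    _ = (3 / 4 : ℝ) ^ (k - finrank ℚ V) * ∑ x ∈ S, ∏ i : I, w8 (x i) := by rw [mul_sum]
    _ ≤ (3 / 4 : ℝ) ^ (k - finrank ℚ V) * 1 := mul_le_mul_of_nonneg_left h2 (by positivity)
    _ = _ := mul_one _

/-! ### number of parity patterns -/

/-- parity patterns of the integer vectors of `V` -/
def parSub {k : ℕ} (V : Submodule ℚ (Fin k → ℚ)) : Submodule (ZMod 2) (Fin k → ZMod 2) where
  carrier := {s | ∃ y : Fin k → ℤ, (fun i => (y i : ℚ)) ∈ V ∧ ∀ i, (y i : ZMod 2) = s i}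
  add_mem' := by
    rintro a b ⟨y, hy, h1⟩ ⟨z, hz, h2⟩
    refine ⟨y + z, ?_, fun i => by simp [h1, h2]⟩
    have := V.add_mem hy hz
    convert this using 1
    funext i
    simp
  zero_mem' := ⟨0, by
    have := V.zero_mem
    convert this using 1
    funext i
    simp, fun i => by simp⟩
  smul_mem' := by
    rintro c a ⟨y, hy, h1⟩
    refine ⟨(c.val : ℤ) • y, ?_, fun i => by simp [h1]⟩
    have := V.smul_mem ((c.val : ℤ) : ℚ) hy
    convert this using 1
    funext i
    simp

theorem finrank_parSub {k : ℕ} (V : Submodule ℚ (Fin k → ℚ)) :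
    finrank (ZMod 2) (parSub V) ≤ finrank ℚ V := by
  classical
  let b := Module.finBasis (ZMod 2) (parSub V)
  have hb : ∀ j, ∃ y : Fin k → ℤ, (fun i => (y i : ℚ)) ∈ V ∧ ∀ i, (y i : ZMod 2) = (b j : Fin k → ZMod 2) i :=
    fun j => (b j).2
  choose y hy hy2 using hb
  let z : Fin (finrank (ZMod 2) (parSub V)) → V := fun j => ⟨fun i => (y j i : ℚ), hy j⟩
  have hdesc : ∀ n : ℕ, ∀ c : Fin (finrank (ZMod 2) (parSub V)) → ℤ,
      (∀ i, ∑ j, c j * y j i = 0) → ∀ j, (2 : ℤ) ^ n ∣ c j := by
    intro n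
    induction n with
    | zero => intro c _ j; simp
    | succ n ih =>
      intro c hc
      have heven : ∀ j, (2 : ℤ) ∣ c j := by
        have hli := b.linearIndependent
        rw [Fintype.linearIndependent_iff] at hli
        have h0 := hli (fun j => (c j : ZMod 2)) (by
          apply Subtype.ext
          rw [Submodule.coe_sum]
          funext i
          rw [Finset.sum_apply]
          have h3 : ((∑ j, c j * y j i : ℤ) : ZMod 2) = 0 := by rw [hc i]; simp
          push_cast at h3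
          simpa [hy2] using h3)
        intro j
        exact (ZMod.intCast_zmod_eq_zero_iff_dvd _ 2).1 (h0 j)
      choose c' hc' using heven
      have h4 := ih c' (by
        intro i
        have h5 := hc i
        have h6 : ∑ j, c j * y j i = 2 * ∑ j, c' j * y j i := by
          rw [mul_sum]
          exact sum_congr rfl fun j _ => by rw [hc' j]; ring
        rw [h6] at h5
        omega)
      intro j
      rw [hc' j, pow_succ, mul_comm]
      exact mul_dvd_mul_left 2 (h4 j)
  have hli : LinearIndependent ℤ z := by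
    rw [Fintype.linearIndependent_iff]
    intro c hc j
    have hc2 : ∀ i, ∑ j, c j * y j i = 0 := by
      intro i
      have h1 := congrFun (congrArg Subtype.val hc) i
      rw [Submodule.coe_sum] at h1
      rw [Finset.sum_apply] at h1
      have h2 : ((∑ j, c j * y j i : ℤ) : ℚ) = 0 := by
        push_cast
        simpa [z] using h1
      exact_mod_cast h2
    have h3 := hdesc (c j).natAbs c hc2 j
    apply Int.eq_zero_of_abs_lt_dvd h3
    rw [Int.abs_eq_natAbs]
    exact_mod_cast Nat.lt_two_pow_self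
  have hli2 : LinearIndependent ℚ z := (LinearIndependent.iff_fractionRing ℤ ℚ).1 hli
  have := hli2.fintype_card_le_finrank
  simpa using this

open Classical in
theorem card_par_le {k : ℕ} (V : Submodule ℚ (Fin k → ℚ)) :
    (univ.filter fun s : Fin k → ZMod 2 => s ∈ parSub V).card ≤ 2 ^ finrank ℚ V := by
  have h1 : (univ.filter fun s : Fin k → ZMod 2 => s ∈ parSub V).card = Fintype.card (parSub V) := by
    rw [Fintype.card_subtype]
  rw [h1, Module.card_eq_pow_finrank (K := ZMod 2), ZMod.card]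
  exact Nat.pow_le_pow_right (by norm_num) (finrank_parSub V)

/-! ### the finite group -/

theorem exists_group {k : ℕ} (V : Submodule ℚ (Fin k → ℚ)) :
    ∃ (G : Type) (_ : AddCommGroup G) (_ : Fintype G) (_ : DecidableEq G) (c : Fin k → G),
      ∀ y : Fin k → ℤ, (∀ i, |y i| ≤ 2) →
        (∑ i, y i • c i = 0 ↔ (fun i => (y i : ℚ)) ∈ V) := by
  classical
  let B : Finset (Fin k → ℤ) := Fintype.piFinset (fun _ => Finset.Icc (-2) 2)
  have hfun : ∀ y : Fin k → ℤ, ∃ a : Fin k → ℤ,
      (∀ z : Fin k → ℤ, (fun i => (z i : ℚ)) ∈ V → ∑ i, z i * a i = 0) ∧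
        ((fun i => (y i : ℚ)) ∉ V → ∑ i, y i * a i ≠ 0) := by
    intro y
    by_cases hy : (fun i => (y i : ℚ)) ∈ V
    · exact ⟨0, by simp, fun h => absurd hy h⟩
    obtain ⟨φ, hφ, hV⟩ := Submodule.exists_le_ker_of_notMem hy
    let D : ℤ := ∏ i, ((φ (Pi.single i 1)).den : ℤ)
    have hD0 : (D : ℚ) ≠ 0 := by
      have : D ≠ 0 := by
        rw [Finset.prod_ne_zero_iff]
        intro i _
        exact_mod_cast (φ (Pi.single i 1)).den_nz
      exact_mod_cast this
    have hD : ∀ i, ∃ a : ℤ, (a : ℚ) = D * φ (Pi.single i 1) := by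
      intro i
      refine ⟨(∏ j ∈ univ.erase i, ((φ (Pi.single j 1)).den : ℤ)) * (φ (Pi.single i 1)).num, ?_⟩
      have h1 : D = (∏ j ∈ univ.erase i, ((φ (Pi.single j 1)).den : ℤ)) *
          ((φ (Pi.single i 1)).den : ℤ) := by
        rw [Finset.prod_erase_mul _ _ (mem_univ i)]
      rw [h1]
      push_cast
      rw [mul_assoc]
      congr 1
      rw [mul_comm]
      exact (Rat.mul_den_eq_num _).symm
    choose a ha using hD
    have hsum : ∀ z : Fin k → ℤ, ((∑ i, z i * a i : ℤ) : ℚ) = D * φ (fun i => (z i : ℚ)) := by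
      intro z
      have h2 : (fun i => (z i : ℚ)) = ∑ i, (z i : ℚ) • (Pi.single i (1 : ℚ) : Fin k → ℚ) := by
        funext j
        simp [Finset.sum_apply, Pi.single_apply]
      rw [h2, map_sum]
      push_cast
      rw [mul_sum]
      refine sum_congr rfl fun i _ => ?_
      rw [ha i, map_smul, smul_eq_mul]
      ring
    refine ⟨a, fun z hz => ?_, fun _ h0 => ?_⟩
    · have h3 := hsum z
      rw [LinearMap.mem_ker.1 (hV hz), mul_zero] at h3
      exact_mod_cast h3
    · have h3 := hsum y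
      rw [h0] at h3
      push_cast at h3
      rcases mul_eq_zero.1 h3.symm with h4 | h4
      · exact hD0 h4
      · exact hφ h4
  choose a ha1 ha2 using hfun
  let N : ℕ := 1 + ∑ y ∈ B, (∑ i, y i * a y i).natAbs
  haveI : NeZero N := ⟨by omega⟩
  refine ⟨B → ZMod N, inferInstance, inferInstance, inferInstance,
    fun i y => ((a y i : ℤ) : ZMod N), ?_⟩
  intro y hy
  have hyB : y ∈ B := by
    rw [Fintype.mem_piFinset]
    intro i
    rw [Finset.mem_Icc]
    exact abs_le.1 (hy i)
  have heval : ∀ b : B, (∑ i, y i • (fun z : B => ((a z i : ℤ) : ZMod N))) b =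
      ((∑ i, y i * a b i : ℤ) : ZMod N) := by
    intro b
    rw [Finset.sum_apply]
    push_cast
    refine sum_congr rfl fun i _ => ?_
    simp
  constructor
  · intro h
    by_contra hn
    have h1 := congrFun h ⟨y, hyB⟩
    have h1' := heval ⟨y, hyB⟩
    rw [h1'] at h1
    simp only [Pi.zero_apply] at h1
    rw [ZMod.intCast_zmod_eq_zero_iff_dvd] at h1
    have h2 := ha2 y hn
    apply h2
    apply Int.eq_zero_of_abs_lt_dvd h1
    rw [Int.abs_eq_natAbs]
    have h3 : (∑ i, y i * a y i).natAbs ≤ ∑ y ∈ B, (∑ i, y i * a y i).natAbs :=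
      Finset.single_le_sum (f := fun y => (∑ i, y i * a y i).natAbs) (fun _ _ => Nat.zero_le _) hyB
    have h4 : (∑ i, y i * a y i).natAbs < N := by
      show _ < 1 + _
      omega
    exact_mod_cast h4
  · intro h
    funext b
    have h1 := heval b
    rw [ha1 b y h] at h1
    simpa using h1

end Vale.Agent.P160.RD.Swap304
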